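import Vale.Agent.P299.H126.Ext
import Vale.Agent.P300.H435.L2.Sing

/-!
# P299 / H216: the bridge between an open part of a complex manifold and an étale cover

`Brg S X`: an open subset `Xo` of the complex manifold `X` is identified with the total space of
the finite étale cover `S` of an open subset of `ℂⁿ` by a map `θ` which is a local biholomorphism.
-/

open scoped Manifold ContDiff ComplexOrder Topology ENNReal
open MeasureTheory Filter Set
open Vale.Agent.P272.K (Cm Chart At jacM jmat cHess IsCanonicalMetric IsForm)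
open Vale.Agent.P300.L2

set_option linter.all false

noncomputable section

namespace Vale.Agent.P299.H216

/-- An identification of the open subset `Xo` of the complex manifold `X` with the total space of
the étale cover `S`. -/
structure Brg {n N : ℕ} (S : Sheets n N) (X : Type) [TopologicalSpace X]
    [ChartedSpace (Cm n) X] where
  Xo : Set X
  isOpen : IsOpen Xo
  θ : X → (Fin n → ℂ) × ℕ
  maps : ∀ x ∈ Xo, θ x ∈ S.M
  inj : Set.InjOn θ Xo
  surj : ∀ q ∈ S.M, ∃ x ∈ Xo, θ x = q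
  /-- the coordinates are holomorphic -/
  hol : ∀ (e : Chart n X) (x : X), At e x → x ∈ Xo →
    AnalyticAt ℂ (fun z : Cm n => (θ (e.symm z)).1) (e x)
  /-- the coordinates are local coordinates -/
  det : ∀ (e : Chart n X) (x : X), At e x → x ∈ Xo →
    Function.Injective (fderiv ℂ (fun z : Cm n => (θ (e.symm z)).1) (e x))
  /-- the labels are locally given by sections of the cover -/
  loc : ∀ x ∈ Xo, ∃ W s, S.IsSection W s ∧ (θ x).1 ∈ W ∧ ∀ᶠ y in 𝓝 x, (θ y).2 = s (θ y).1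

namespace Brg

variable {n N : ℕ} {S : Sheets n N} {X : Type} [TopologicalSpace X] [ChartedSpace (Cm n) X]
  [Nonempty X] (B : Brg S X)

/-- the inverse of `θ` -/
def j (q : (Fin n → ℂ) × ℕ) : X := Function.invFunOn B.θ B.Xo q

theorem j_mem {q : (Fin n → ℂ) × ℕ} (hq : q ∈ S.M) : B.j q ∈ B.Xo :=
  Function.invFunOn_mem (B.surj q hq)

theorem θ_j {q : (Fin n → ℂ) × ℕ} (hq : q ∈ S.M) : B.θ (B.j q) = q :=
  Function.invFunOn_eq (B.surj q hq)

theorem j_θ {x : X} (hx : x ∈ B.Xo) : B.j (B.θ x) = x :=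
  B.inj (B.j_mem (B.maps x hx)) hx (B.θ_j (B.maps x hx))

/-- the coordinates in the chart `e` -/
def cf (e : Chart n X) (z : Cm n) : Cm n := (B.θ (e.symm z)).1

theorem cf_analyticAt {e : Chart n X} {x : X} (h : At e x) (hx : x ∈ B.Xo) :
    AnalyticAt ℂ (B.cf e) (e x) := B.hol e x h hx

/-- the Jacobian matrix of `θ` in the chart `e`: `J p i = ∂ζ_p/∂z_i` -/
def J (e : Chart n X) (x : X) : Matrix (Fin n) (Fin n) ℂ := jmat (B.cf e) (e x)

theorem cf_eq {e : Chart n X} {x : X} (h : At e x) : B.cf e (e x) = (B.θ x).1 := by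
  show (B.θ (e.symm (e x))).1 = _
  rw [h.left_inv]

/-- **local inverse along the sections** -/
theorem lift {W : Set (Fin n → ℂ)} {s : (Fin n → ℂ) → ℕ} (hs : S.IsSection W s) {z₀ : Fin n → ℂ}
    (hz : z₀ ∈ W) {e : Chart n X} (he : At e (B.j (z₀, s z₀))) :
    ∃ g : OpenPartialHomeomorph (Cm n) (Cm n), g.source ⊆ e.target ∧
      e (B.j (z₀, s z₀)) ∈ g.source ∧ g.target ⊆ W ∧ z₀ ∈ g.target ∧
      (∀ w ∈ g.source, e.symm w ∈ B.Xo ∧ g w = B.cf e w ∧
        B.θ (e.symm w) = (g w, s (g w))) ∧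
      ∀ z ∈ g.target, AnalyticAt ℂ g.symm z ∧ B.j (z, s z) = e.symm (g.symm z) ∧
        At e (B.j (z, s z)) ∧ e (B.j (z, s z)) = g.symm z := by
  have hM := hs.mem_M hz
  set x₀ := B.j (z₀, s z₀) with hx₀
  have hxo : x₀ ∈ B.Xo := B.j_mem hM
  have hθ : B.θ x₀ = (z₀, s z₀) := B.θ_j hM
  have hcf : B.cf e (e x₀) = z₀ := by rw [B.cf_eq he, hθ]
  obtain ⟨W', s', hs', hW', hev⟩ := B.loc x₀ hxo
  rw [hθ] at hW'
  have h0 : s' z₀ = s z₀ := by
    have := hev.self_of_nhds
    rw [hθ] at this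
    exact this.symm
  have hgerm := hs'.germ hs hW' hz h0
  have han := B.cf_analyticAt he hxo
  -- the derivative as an equivalence
  have hinj := B.det e x₀ he hxo
  set L : Cm n →L[ℂ] Cm n := fderiv ℂ (B.cf e) (e x₀) with hL
  let E : Cm n ≃L[ℂ] Cm n := (LinearEquiv.ofInjectiveEndo L.toLinearMap hinj).toContinuousLinearEquiv
  have hE : (E : Cm n →L[ℂ] Cm n) = L := by
    ext v : 1
    rfl
  have hcd : ContDiffAt ℂ ω (B.cf e) (e x₀) := han.contDiffAt
  have hfd : HasFDerivAt (B.cf e) (E : Cm n →L[ℂ] Cm n) (e x₀) := by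
    rw [hE]; exact (hcd.differentiableAt (by simp)).hasFDerivAt
  set R := hcd.toOpenPartialHomeomorph (B.cf e) hfd (by simp) with hR
  have hRc : ∀ w, R w = B.cf e w := fun w => by
    rw [hR, ContDiffAt.toOpenPartialHomeomorph_coe]
  have hRs : e x₀ ∈ R.source := hcd.mem_toOpenPartialHomeomorph_source hfd (by simp)
  -- neighbourhood of `x₀`
  have hsymm : Tendsto e.symm (𝓝 (e x₀)) (𝓝 x₀) := by
    have := e.continuousAt_symm he.mem_target
    rwa [ContinuousAt, he.left_inv] at this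
  have hcont : Tendsto (B.cf e) (𝓝 (e x₀)) (𝓝 z₀) := by
    have := hcd.continuousAt
    rwa [ContinuousAt, hcf] at this
  have hgood : ∀ᶠ w in 𝓝 (e x₀), w ∈ e.target ∧ e.symm w ∈ B.Xo ∧ B.cf e w ∈ W ∧
      B.θ (e.symm w) = (B.cf e w, s (B.cf e w)) := by
    filter_upwards [he.nhds_target, hsymm.eventually (B.isOpen.mem_nhds hxo),
      hcont.eventually (hs.isOpen.mem_nhds hz), hsymm.eventually hev,
      hcont.eventually hgerm] with w h1 h2 h3 h4 h5
    refine ⟨h1, h2, h3, ?_⟩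
    have h6 : (B.θ (e.symm w)).2 = s' (B.cf e w) := h4
    rw [← h5, ← h6]
    rfl
  obtain ⟨O, hO1, hO2, hO3⟩ := eventually_nhds_iff.1 hgood
  let g := R.restrOpen O hO2
  have hgs : g.source = R.source ∩ O := rfl
  have hgx : e x₀ ∈ g.source := ⟨hRs, hO3⟩
  have hgc : ∀ w, g w = B.cf e w := hRc
  have key : ∀ w ∈ g.source, e.symm w ∈ B.Xo ∧ g w = B.cf e w ∧
      B.θ (e.symm w) = (g w, s (g w)) := fun w hw =>
    ⟨(hO1 w hw.2).2.1, hgc w, by rw [hgc w]; exact (hO1 w hw.2).2.2.2⟩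
  refine ⟨g, fun w hw => (hO1 w hw.2).1, hgx, ?_, ?_, key, ?_⟩
  · intro z hzt
    have h1 := g.map_target hzt
    have h2 := (hO1 _ h1.2).2.2.1
    rw [← hgc, g.right_inv hzt] at h2
    exact h2
  · have := g.map_source hgx
    rwa [hgc, hcf] at this
  · intro z hzt
    have h1 := g.map_target hzt
    obtain ⟨h2, h3, h4⟩ := key _ h1
    rw [g.right_inv hzt] at h4
    have h5 : B.j (z, s z) = e.symm (g.symm z) := by
      rw [← h4]; exact B.j_θ h2
    have h6 : g.symm z ∈ e.target := (hO1 _ h1.2).1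
    have hAt : At e (B.j (z, s z)) := by rw [h5]; exact At.of_target he.1 h6
    have h7 : e (B.j (z, s z)) = g.symm z := by rw [h5, e.right_inv h6]
    refine ⟨?_, h5, hAt, h7⟩
    -- analyticity of the inverse
    have hxo' : B.j (z, s z) ∈ B.Xo := by rw [h5]; exact h2
    have han' := B.cf_analyticAt hAt hxo'
    have hinj' := B.det e _ hAt hxo'
    rw [h7] at han'
    set L' : Cm n →L[ℂ] Cm n := fderiv ℂ (B.cf e) (g.symm z) with hL'
    have hinj'' : Function.Injective L' := by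
      have : fderiv ℂ (B.cf e) (e (B.j (z, s z))) = L' := by rw [h7]
      rw [← this]; exact hinj'
    let E' : Cm n ≃L[ℂ] Cm n :=
      (LinearEquiv.ofInjectiveEndo L'.toLinearMap hinj'').toContinuousLinearEquiv
    have hE' : (E' : Cm n →L[ℂ] Cm n) = L' := by
      ext v : 1
      rfl
    have hgf : (g : Cm n → Cm n) = B.cf e := funext hgc
    refine (g.contDiffAt_symm (n := ω) (f₀' := E') hzt ?_ ?_).analyticAt
    · rw [hE', hgf]
      exact (han'.contDiffAt (n := ω)).differentiableAt (by simp) |>.hasFDerivAt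
    · rw [hgf]
      exact han'.contDiffAt

section along

variable {W : Set (Fin n → ℂ)} {s : (Fin n → ℂ) → ℕ} {z₀ : Fin n → ℂ} {e e' : Chart n X} {x : X}

theorem lc_eventually (hs : S.IsSection W s) (hz : z₀ ∈ W) (he : At e (B.j (z₀, s z₀))) :
    ∀ᶠ z in 𝓝 z₀, z ∈ W ∧ At e (B.j (z, s z)) ∧ B.j (z, s z) ∈ B.Xo ∧
      e.symm (e (B.j (z, s z))) = B.j (z, s z) ∧ B.cf e (e (B.j (z, s z))) = z := by
  obtain ⟨g, hg1, hg2, hg3, hg4, hg5, hg6⟩ := B.lift hs hz he
  filter_upwards [g.open_target.mem_nhds hg4] with z hz'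
  obtain ⟨h1, h2, h3, h4⟩ := hg6 z hz'
  refine ⟨hg3 hz', h3, B.j_mem (hs.mem_M (hg3 hz')), h3.left_inv, ?_⟩
  rw [B.cf_eq h3, B.θ_j (hs.mem_M (hg3 hz'))]

theorem lc_analyticAt (hs : S.IsSection W s) (hz : z₀ ∈ W) (he : At e (B.j (z₀, s z₀))) :
    AnalyticAt ℂ (fun z => e (B.j (z, s z))) z₀ := by
  obtain ⟨g, hg1, hg2, hg3, hg4, hg5, hg6⟩ := B.lift hs hz he
  refine (hg6 z₀ hg4).1.congr ?_
  filter_upwards [g.open_target.mem_nhds hg4] with z hz'
  exact (hg6 z hz').2.2.2.symm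

theorem J_mul_lc (hs : S.IsSection W s) (hz : z₀ ∈ W) (he : At e (B.j (z₀, s z₀))) :
    B.J e (B.j (z₀, s z₀)) * jmat (fun z => e (B.j (z, s z))) z₀ = 1 := by
  have h1 := B.lc_analyticAt hs hz he
  have h2 := B.cf_analyticAt he (B.j_mem (hs.mem_M hz))
  rw [J, ← Vale.Agent.P272.K.jmat_comp (σ := B.cf e) (τ := fun z => e (B.j (z, s z))) (z := z₀)
    h2.differentiableAt h1.differentiableAt, ← Vale.Agent.P272.K.jmat_id z₀]
  exact Vale.Agent.P272.K.jmat_congr (by
    filter_upwards [B.lc_eventually hs hz he] with z hz' using hz'.2.2.2.2)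

variable [IsManifold 𝓘(ℂ, Cm n) ω X]

/-- cocycle rule -/
theorem J_comp (h : At e x) (h' : At e' x) (hx : x ∈ B.Xo) :
    B.J e x = B.J e' x * jacM e e' x := by
  have h2 : e' (e.symm (e x)) = e' x := by rw [h.left_inv]
  have h3 := B.cf_analyticAt h' hx
  have := Vale.Agent.P272.K.jmat_comp (σ := B.cf e') (τ := fun z => e' (e.symm z)) (z := e x)
    (by rw [h2]; exact h3.differentiableAt)
    (Vale.Agent.P272.K.transition_differentiableAt h h')
  rw [h2] at this
  show jmat (B.cf e) (e x) = jmat (B.cf e') (e' x) * jmat (fun z => e' (e.symm z)) (e x)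
  rw [← this]
  refine Vale.Agent.P272.K.jmat_congr ?_
  filter_upwards [h.nhds_at h'] with z hz
  show (B.θ (e.symm z)).1 = (B.θ (e'.symm (e' (e.symm z)))).1
  rw [hz.2.2.left_inv]

end along

theorem J_det {e : Chart n X} {x : X} (h : At e x) (hx : x ∈ B.Xo) : (B.J e x).det ≠ 0 := by
  have h1 := B.j_θ hx
  have hM := B.maps x hx
  obtain ⟨s, W, hs, hz, hsq⟩ := Sheets.exists_section hM
  have h2 : B.j ((B.θ x).1, s (B.θ x).1) = x := by rw [hsq]; exact h1
  have h3 := B.J_mul_lc hs hz (e := e) (by rw [h2]; exact h)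
  rw [h2] at h3
  intro h0
  have := congrArg Matrix.det h3
  rw [Matrix.det_mul, h0, zero_mul, Matrix.det_one] at this
  exact zero_ne_one this

/-- the entries of the Jacobian matrix are holomorphic -/
theorem J_analyticAt {e : Chart n X} {x : X} (h : At e x) (hx : x ∈ B.Xo) (p i : Fin n) :
    ContDiffAt ℂ ω (fun z => B.J e (e.symm z) p i) (e x) := by
  have h1 := Vale.Agent.P272.K.jmat_holo (B.cf_analyticAt h hx).contDiffAt p i
  refine h1.congr_of_eventuallyEq ?_
  filter_upwards [h.nhds_target] with z hz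
  show jmat (B.cf e) (e (e.symm z)) p i = _
  rw [e.right_inv hz]

theorem J_det_analyticAt {e : Chart n X} {x : X} (h : At e x) (hx : x ∈ B.Xo) :
    ContDiffAt ℂ ω (fun z => (B.J e (e.symm z)).det) (e x) := by
  have : (fun z => (B.J e (e.symm z)).det) = fun z => ∑ σ : Equiv.Perm (Fin n),
      (Equiv.Perm.sign σ : ℂ) * ∏ i, B.J e (e.symm z) (σ i) i := by
    funext z; rw [Matrix.det_apply']
  rw [this]
  exact ContDiffAt.sum fun σ _ => contDiffAt_const.mul
    (contDiffAt_prod fun i _ => B.J_analyticAt h hx _ _)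

end Brg

end Vale.Agent.P299.H216
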