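import Vale.Agent.P299.H216.BrgW

/-!
# P299 / H216: tensors on the bridge

`B.comp m u I` : the components of the section `u` of `(Ω¹)^{⊗p} ⊗ (-mK)` in the frame given by the
coordinates of the étale cover; `B.ofComp` : the converse.
-/

open scoped Manifold ContDiff ComplexOrder Topology
open MeasureTheory Filter Set
open Vale.Agent.P272.K (Cm Chart At jacM jmat cHess IsCanonicalMetric IsForm)
open Vale.Agent.P300.L2 Vale.Agent.P299.D

set_option linter.all false

noncomputable section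

namespace Vale.Agent.P299.H216

section tenPull

variable {a b c p : ℕ}

theorem tenPull_mul' (A : Matrix (Fin a) (Fin b) ℂ) (B : Matrix (Fin b) (Fin c) ℂ)
    (s : (Fin p → Fin a) → ℂ) : tenPull (A * B) s = tenPull B (tenPull A s) := by
  funext I
  show ∑ K : Fin p → Fin a, (∏ t, (A * B) (K t) (I t)) * s K =
    ∑ L : Fin p → Fin b, (∏ t, B (L t) (I t)) * ∑ K : Fin p → Fin a, (∏ t, A (K t) (L t)) * s K
  have h1 : ∀ K : Fin p → Fin a, (∏ t, (A * B) (K t) (I t)) =
      ∑ L : Fin p → Fin b, ∏ t, A (K t) (L t) * B (L t) (I t) := by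
    intro K
    simp only [Matrix.mul_apply]
    rw [Finset.prod_univ_sum, Fintype.piFinset_univ]
  simp only [h1, Finset.sum_mul, Finset.mul_sum]
  rw [Finset.sum_comm]
  refine Finset.sum_congr rfl fun L _ => Finset.sum_congr rfl fun K _ => ?_
  rw [Finset.prod_mul_distrib]
  ring

theorem tenPull_one' (s : (Fin p → Fin a) → ℂ) :
    tenPull (1 : Matrix (Fin a) (Fin a) ℂ) s = s := by
  funext I
  show ∑ K : Fin p → Fin a, (∏ t, (1 : Matrix (Fin a) (Fin a) ℂ) (K t) (I t)) * s K = s I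
  rw [Finset.sum_eq_single I]
  · simp
  · intro K _ hK
    obtain ⟨t, ht⟩ := Function.ne_iff.1 hK
    have h1 : (∏ t, (1 : Matrix (Fin a) (Fin a) ℂ) (K t) (I t)) = 0 :=
      Finset.prod_eq_zero (Finset.mem_univ t) (Matrix.one_apply_ne ht)
    rw [h1, zero_mul]
  · intro h; exact absurd (Finset.mem_univ I) h

theorem tenPull_smul' (A : Matrix (Fin a) (Fin b) ℂ) (c : ℂ) (s : (Fin p → Fin a) → ℂ) :
    tenPull A (fun K => c * s K) = fun I => c * tenPull A s I := by
  funext I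
  show ∑ K : Fin p → Fin a, (∏ t, A (K t) (I t)) * (c * s K) =
    c * ∑ K : Fin p → Fin a, (∏ t, A (K t) (I t)) * s K
  rw [Finset.mul_sum]
  exact Finset.sum_congr rfl fun K _ => by ring

theorem tenPull_inj {A : Matrix (Fin a) (Fin a) ℂ} (hA : A.det ≠ 0)
    {s t : (Fin p → Fin a) → ℂ} (h : tenPull A s = tenPull A t) : s = t := by
  have h1 : A * A⁻¹ = 1 := Matrix.mul_nonsing_inv _ (isUnit_iff_ne_zero.2 hA)
  rw [← tenPull_one' s, ← tenPull_one' t, ← h1, tenPull_mul', tenPull_mul', h]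

end tenPull

theorem analyticAt_of_holo {n N : ℕ} {S : Sheets n N} {W : Set (Fin n → ℂ)}
    {s : (Fin n → ℂ) → ℕ} {z₀ : Fin n → ℂ} (hs : S.IsSection W s)
    {F : (Fin n → ℂ) × ℕ → ℂ} (hF : S.Holo F) (hz : z₀ ∈ W) :
    AnalyticAt ℂ (fun z => F (z, s z)) z₀ :=
  Vale.Agent.P268.analyticOnNhd_of_differentiableOn hs.isOpen (hF W s hs) z₀ hz

namespace Brg

variable {n N p m : ℕ} {S : Sheets n N} {X : Type} [TopologicalSpace X] [ChartedSpace (Cm n) X]
  [Nonempty X] (B : Brg S X)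

/-- the components of a section of `(Ω¹)^{⊗p} ⊗ (-mK)` in the frame of the cover -/
def comp (m : ℕ) (u : Ten n p X) (I : Fin p → Fin n) (q : (Fin n → ℂ) × ℕ) : ℂ :=
  (B.J (B.ce q) (B.j q)).det ^ m *
    tenPull (B.J (B.ce q) (B.j q))⁻¹ (u (B.ce q) (B.ce q (B.j q))) I

variable [IsManifold 𝓘(ℂ, Cm n) ω X]

/-- the change law for a tensor off a set -/
def Chg (m : ℕ) (u : Ten n p X) (x : X) : Prop := ∀ e e', At e x → At e' x → ∀ I,
  (jacM e e' x).det ^ m * u e (e x) I = tenPull (jacM e e' x) (u e' (e' x)) I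

theorem comp_eq {u : Ten n p X} {q : (Fin n → ℂ) × ℕ} (hq : q ∈ S.M) (hu : Chg m u (B.j q))
    {e : Chart n X} (he : At e (B.j q)) (I : Fin p → Fin n) :
    B.comp m u I q = (B.J e (B.j q)).det ^ m * tenPull (B.J e (B.j q))⁻¹ (u e (e (B.j q))) I := by
  have hx := B.j_mem hq
  have h0 := B.ce_at q
  set x := B.j q with hxd
  set e' := B.ce q with he'
  have h2 := B.J_comp he h0 hx
  have h3 := B.J_det h0 hx
  have h4 := Vale.Agent.P272.K.jacM_det_ne_zero he h0
  set T := jacM e e' x with hT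
  have h5 : (B.J e x)⁻¹ = T⁻¹ * (B.J e' x)⁻¹ := by
    rw [h2, Matrix.mul_inv_rev]
  have h6 : tenPull T⁻¹ (fun I => T.det ^ m * u e (e x) I) = u e' (e' x) := by
    have h7 : (fun I => T.det ^ m * u e (e x) I) = tenPull T (u e' (e' x)) := by
      funext I; exact hu e e' he h0 I
    rw [h7, ← tenPull_mul', Matrix.mul_nonsing_inv _ (isUnit_iff_ne_zero.2 h4), tenPull_one']
  show (B.J e' x).det ^ m * tenPull (B.J e' x)⁻¹ (u e' (e' x)) I = _
  rw [← h6, ← tenPull_mul', ← h5, tenPull_smul', h2, Matrix.det_mul, mul_pow]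
  ring

/-- frame change from the cover to a chart -/
theorem comp_pull {u : Ten n p X} {q : (Fin n → ℂ) × ℕ} (hq : q ∈ S.M) (hu : Chg m u (B.j q))
    {e : Chart n X} (he : At e (B.j q)) :
    tenPull (B.J e (B.j q)) (fun I => B.comp m u I q) =
      fun I => (B.J e (B.j q)).det ^ m * u e (e (B.j q)) I := by
  have h3 := B.J_det he (B.j_mem hq)
  have h1 : (fun I => B.comp m u I q) = fun I => (B.J e (B.j q)).det ^ m *
      tenPull (B.J e (B.j q))⁻¹ (u e (e (B.j q))) I := by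
    funext I; exact B.comp_eq hq hu he I
  rw [h1, tenPull_smul', ← tenPull_mul', Matrix.nonsing_inv_mul _ (isUnit_iff_ne_zero.2 h3),
    tenPull_one']

/-- the tensor vanishes at a point iff its components do -/
theorem comp_eq_zero_iff {u : Ten n p X} {q : (Fin n → ℂ) × ℕ} (hq : q ∈ S.M)
    (hu : Chg m u (B.j q)) {e : Chart n X} (he : At e (B.j q)) :
    (∀ I, B.comp m u I q = 0) ↔ ∀ I, u e (e (B.j q)) I = 0 := by
  have h3 := B.J_det he (B.j_mem hq)
  constructor
  · intro h I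
    have h1 := congrFun (B.comp_pull hq hu he) I
    have h2 : (fun I => B.comp m u I q) = fun _ => 0 := by funext I; exact h I
    rw [h2] at h1
    have h4 : tenPull (p := p) (B.J e (B.j q)) (fun _ => 0) I = 0 := by
      show ∑ K : Fin p → Fin n, _ * (0 : ℂ) = 0
      simp
    rw [h4] at h1
    rcases mul_eq_zero.1 h1.symm with h | h
    · exact absurd h (pow_ne_zero _ h3)
    · exact h
  · intro h I
    rw [B.comp_eq hq hu he I]
    have h4 : tenPull (B.J e (B.j q))⁻¹ (u e (e (B.j q))) I = 0 := by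
      show ∑ K : Fin p → Fin n, _ * u e (e (B.j q)) K = 0
      simp [h]
    rw [h4, mul_zero]

variable {e : Chart n X} {x : X} {W : Set (Fin n → ℂ)} {s : (Fin n → ℂ) → ℕ} {z₀ : Fin n → ℂ}

/-- entries of the inverse Jacobian matrix are holomorphic -/
theorem J_inv_analyticAt (h : At e x) (hx : x ∈ B.Xo) (a b : Fin n) :
    AnalyticAt ℂ (fun w => (B.J e (e.symm w))⁻¹ a b) (e x) := by
  have h1 : (fun w => (B.J e (e.symm w))⁻¹ a b) = fun w =>
      (B.J e (e.symm w)).det⁻¹ * (B.J e (e.symm w)).adjugate a b := by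
    funext w
    rw [Matrix.inv_def, Matrix.smul_apply, Ring.inverse_eq_inv', smul_eq_mul]
  rw [h1]
  have h2 : AnalyticAt ℂ (fun w => (B.J e (e.symm w)).det) (e x) :=
    (B.J_det_analyticAt h hx).analyticAt
  have h3 : (B.J e (e.symm (e x))).det ≠ 0 := by rw [h.left_inv]; exact B.J_det h hx
  refine (h2.inv h3).mul ?_
  have h4 : (fun w => (B.J e (e.symm w)).adjugate a b) = fun w =>
      ∑ σ : Equiv.Perm (Fin n), (Equiv.Perm.sign σ : ℂ) *
        ∏ i, (B.J e (e.symm w)).updateRow b (Pi.single a 1) (σ i) i := by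
    funext w
    rw [Matrix.adjugate_apply, Matrix.det_apply']
  rw [h4]
  refine Finset.analyticAt_fun_sum _ fun σ _ => analyticAt_const.mul ?_
  refine Finset.analyticAt_fun_prod _ fun i _ => ?_
  by_cases hb : σ i = b
  · have : (fun w => (B.J e (e.symm w)).updateRow b (Pi.single a 1) (σ i) i) =
        fun _ => (Pi.single a (1 : ℂ) : Fin n → ℂ) i := by
      funext w; rw [hb, Matrix.updateRow_self]
    rw [this]; exact analyticAt_const
  · have : (fun w => (B.J e (e.symm w)).updateRow b (Pi.single a 1) (σ i) i) =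
        fun w => (B.J e (e.symm w)) (σ i) i := by
      funext w; rw [Matrix.updateRow_ne hb]
    rw [this]; exact (B.J_analyticAt h hx _ _).analyticAt

theorem tenPull_analyticAt {A : Cm n → Matrix (Fin n) (Fin n) ℂ} {u : Cm n → (Fin p → Fin n) → ℂ}
    {w : Cm n} (hA : ∀ a b, AnalyticAt ℂ (fun w => A w a b) w)
    (hu : ∀ K, AnalyticAt ℂ (fun w => u w K) w) (I : Fin p → Fin n) :
    AnalyticAt ℂ (fun w => tenPull (A w) (u w) I) w := by
  show AnalyticAt ℂ (fun w => ∑ K : Fin p → Fin n, (∏ a, A w (K a) (I a)) * u w K) w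
  refine Finset.analyticAt_fun_sum _ fun K _ => AnalyticAt.mul ?_ (hu K)
  exact Finset.analyticAt_fun_prod _ fun a _ => hA _ _

/-- **the components of a holomorphic tensor are holomorphic along the sheets** -/
theorem comp_analyticAt {u : Ten n p X}
    (hh : ∀ e x, At e x → x ∈ B.Xo → ∀ I, AnalyticAt ℂ (fun z => u e z I) (e x))
    (hc : ∀ x ∈ B.Xo, Chg m u x) (hs : S.IsSection W s) (hz : z₀ ∈ W) (I : Fin p → Fin n) :
    AnalyticAt ℂ (fun z => B.comp m u I (z, s z)) z₀ := by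
  have he : At (B.ce (z₀, s z₀)) (B.j (z₀, s z₀)) := B.ce_at _
  set e := B.ce (z₀, s z₀) with hed
  have hxo := B.j_mem (hs.mem_M hz)
  have h1 := B.lc_analyticAt hs hz he
  have h2 : AnalyticAt ℂ (fun w => (B.J e (e.symm w)).det ^ m *
      tenPull (B.J e (e.symm w))⁻¹ (u e w) I) (e (B.j (z₀, s z₀))) := by
    refine AnalyticAt.mul ((B.J_det_analyticAt he hxo).analyticAt.pow m) ?_
    exact tenPull_analyticAt (fun a b => B.J_inv_analyticAt he hxo a b)
      (fun K => hh e _ he hxo K) I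
  have h3 : AnalyticAt ℂ (fun z => (fun w => (B.J e (e.symm w)).det ^ m *
      tenPull (B.J e (e.symm w))⁻¹ (u e w) I) (e (B.j (z, s z)))) z₀ :=
    AnalyticAt.comp (g := fun w => (B.J e (e.symm w)).det ^ m *
      tenPull (B.J e (e.symm w))⁻¹ (u e w) I) (f := fun z => e (B.j (z, s z))) h2 h1
  refine h3.congr ?_
  filter_upwards [B.lc_eventually hs hz he] with z hz'
  obtain ⟨h4, h5, h6, h7, h8⟩ := hz'
  show (B.J e (e.symm (e (B.j (z, s z))))).det ^ m *
      tenPull (B.J e (e.symm (e (B.j (z, s z)))))⁻¹ (u e (e (B.j (z, s z)))) I = _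
  rw [h7, B.comp_eq (hs.mem_M h4) (hc _ h6) h5]

theorem comp_holo {u : Ten n p X}
    (hh : ∀ e x, At e x → x ∈ B.Xo → ∀ I, AnalyticAt ℂ (fun z => u e z I) (e x))
    (hc : ∀ x ∈ B.Xo, Chg m u x) (I : Fin p → Fin n) : S.Holo (B.comp m u I) :=
  fun W s hs z hz => (B.comp_analyticAt hh hc hs hz I).differentiableAt.differentiableWithinAt

theorem _root_.Vale.Agent.P299.D.IsTen.chg {u : Ten n p X} (hu : IsTen p m u) (x : X) :
    Chg m u x := fun e e' h h' I => hu.change e e' x h h' I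

/-- components of a tensor on `X` -/
theorem comp_holo' {u : Ten n p X} (hu : IsTen p m u) (I : Fin p → Fin n) :
    S.Holo (B.comp m u I) :=
  B.comp_holo (fun e x h _ I => hu.holo e x h I) (fun x _ => hu.chg x) I

/-- the tensor with given components -/
def ofComp (m : ℕ) (F : (Fin p → Fin n) → (Fin n → ℂ) × ℕ → ℂ) : Ten n p X := fun e z I =>
  ((B.J e (e.symm z)).det ^ m)⁻¹ * tenPull (B.J e (e.symm z)) (fun K => F K (B.θ (e.symm z))) I

theorem ofComp_chg (F : (Fin p → Fin n) → (Fin n → ℂ) × ℕ → ℂ) (hx : x ∈ B.Xo) :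
    Chg m (B.ofComp m F) x := by
  intro e e' h h' I
  have h1 := B.J_comp h h' hx
  have h2 := B.J_det h hx
  have h3 := B.J_det h' hx
  have h4 := Vale.Agent.P272.K.jacM_det_ne_zero h h'
  show (jacM e e' x).det ^ m * (((B.J e (e.symm (e x))).det ^ m)⁻¹ *
    tenPull (B.J e (e.symm (e x))) (fun K => F K (B.θ (e.symm (e x)))) I) =
    tenPull (jacM e e' x) (fun I => ((B.J e' (e'.symm (e' x))).det ^ m)⁻¹ *
      tenPull (B.J e' (e'.symm (e' x))) (fun K => F K (B.θ (e'.symm (e' x)))) I) I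
  rw [h.left_inv, h'.left_inv, tenPull_smul', ← tenPull_mul', ← h1, h1, Matrix.det_mul, mul_pow,
    mul_inv]
  have h5 : (jacM e e' x).det ^ m * ((jacM e e' x).det ^ m)⁻¹ = 1 :=
    mul_inv_cancel₀ (pow_ne_zero _ h4)
  linear_combination (((B.J e' x).det ^ m)⁻¹ * tenPull (B.J e' x * jacM e e' x)
    (fun K => F K (B.θ x)) I) * h5

/-- `θ` along a chart -/
theorem θ_eventually {x : X} (h : At e x) (hx : x ∈ B.Xo) : ∃ W s, S.IsSection W s ∧
    ∀ᶠ w in 𝓝 (e x), w ∈ e.target ∧ e.symm w ∈ B.Xo ∧ B.cf e w ∈ W ∧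
      B.θ (e.symm w) = (B.cf e w, s (B.cf e w)) := by
  obtain ⟨W, s, hs, hW, hev⟩ := B.loc x hx
  refine ⟨W, s, hs, ?_⟩
  have hsymm : Tendsto e.symm (𝓝 (e x)) (𝓝 x) := by
    have := e.continuousAt_symm h.mem_target
    rwa [ContinuousAt, h.left_inv] at this
  have hcont : Tendsto (B.cf e) (𝓝 (e x)) (𝓝 (B.θ x).1) := by
    have := (B.cf_analyticAt h hx).continuousAt
    rwa [ContinuousAt, B.cf_eq h] at this
  filter_upwards [h.nhds_target, hsymm.eventually (B.isOpen.mem_nhds hx),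
    hcont.eventually (hs.isOpen.mem_nhds hW), hsymm.eventually hev] with w h1 h2 h3 h4
  refine ⟨h1, h2, h3, ?_⟩
  have h6 : (B.θ (e.symm w)).2 = s (B.cf e w) := h4
  rw [← h6]
  rfl

/-- pull back of a holomorphic function -/
theorem analyticAt_comp_θ {F : (Fin n → ℂ) × ℕ → ℂ} (hF : S.Holo F) (h : At e x)
    (hx : x ∈ B.Xo) : AnalyticAt ℂ (fun w => F (B.θ (e.symm w))) (e x) := by
  obtain ⟨W, s, hs, hev⟩ := B.θ_eventually h hx
  have h0 := hev.self_of_nhds
  have h1 : AnalyticAt ℂ (fun z => F (z, s z)) (B.cf e (e x)) :=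
    Vale.Agent.P299.H216.analyticAt_of_holo hs hF h0.2.2.1
  have h2 : AnalyticAt ℂ (fun w => (fun z => F (z, s z)) (B.cf e w)) (e x) :=
    AnalyticAt.comp (g := fun z => F (z, s z)) (f := B.cf e) h1 (B.cf_analyticAt h hx)
  refine h2.congr ?_
  filter_upwards [hev] with w hw
  show F (B.cf e w, s (B.cf e w)) = _
  rw [hw.2.2.2]

theorem ofComp_analyticAt {F : (Fin p → Fin n) → (Fin n → ℂ) × ℕ → ℂ} (hF : ∀ I, S.Holo (F I))
    (h : At e x) (hx : x ∈ B.Xo) (I : Fin p → Fin n) :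
    AnalyticAt ℂ (fun z => B.ofComp m F e z I) (e x) := by
  refine AnalyticAt.mul ?_ ?_
  · exact ((B.J_det_analyticAt h hx).analyticAt.pow m).inv
      (pow_ne_zero _ (by
        show (B.J e (e.symm (e x))).det ≠ 0
        rw [h.left_inv]; exact B.J_det h hx))
  · exact tenPull_analyticAt (fun a b => (B.J_analyticAt h hx a b).analyticAt)
      (fun K => B.analyticAt_comp_θ (hF K) h hx) I

/-- a family of holomorphic functions on the cover is a tensor on `Xo` -/
theorem ofComp_isTenOff {F : (Fin p → Fin n) → (Fin n → ℂ) × ℕ → ℂ} (hF : ∀ I, S.Holo (F I)) :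
    H126.IsTenOff B.Xoᶜ p m (B.ofComp m F) where
  holo e x h hx I := B.ofComp_analyticAt hF h (not_not.1 hx) I
  change e e' x h h' hx I := B.ofComp_chg F (not_not.1 hx) e e' h h' I

theorem comp_ofComp (F : (Fin p → Fin n) → (Fin n → ℂ) × ℕ → ℂ) {q : (Fin n → ℂ) × ℕ}
    (hq : q ∈ S.M) (I : Fin p → Fin n) : B.comp m (B.ofComp m F) I q = F I q := by
  have hx := B.j_mem hq
  have h := B.ce_at q
  have h3 := B.J_det h hx
  show (B.J (B.ce q) (B.j q)).det ^ m * tenPull (B.J (B.ce q) (B.j q))⁻¹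
    (fun I => ((B.J (B.ce q) ((B.ce q).symm (B.ce q (B.j q)))).det ^ m)⁻¹ *
      tenPull (B.J (B.ce q) ((B.ce q).symm (B.ce q (B.j q))))
        (fun K => F K (B.θ ((B.ce q).symm (B.ce q (B.j q))))) I) I = _
  rw [h.left_inv, tenPull_smul', ← tenPull_mul',
    Matrix.mul_nonsing_inv _ (isUnit_iff_ne_zero.2 h3), tenPull_one', B.θ_j hq]
  have h5 : (B.J (B.ce q) (B.j q)).det ^ m * ((B.J (B.ce q) (B.j q)).det ^ m)⁻¹ = 1 :=
    mul_inv_cancel₀ (pow_ne_zero _ h3)
  linear_combination (F I q) * h5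

theorem ofComp_comp {u : Ten n p X} (hx : x ∈ B.Xo) (hu : Chg m u x) (h : At e x)
    (I : Fin p → Fin n) : B.ofComp m (B.comp m u) e (e x) I = u e (e x) I := by
  have hM := B.maps x hx
  have hj := B.j_θ hx
  have h3 := B.J_det h hx
  show ((B.J e (e.symm (e x))).det ^ m)⁻¹ * tenPull (B.J e (e.symm (e x)))
    (fun K => B.comp m u K (B.θ (e.symm (e x)))) I = _
  rw [h.left_inv]
  have h1 := B.comp_pull hM (m := m) (u := u) (by rw [hj]; exact hu) (e := e) (by rw [hj]; exact h)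
  rw [hj] at h1
  rw [h1]
  show ((B.J e x).det ^ m)⁻¹ * ((B.J e x).det ^ m * u e (e x) I) = _
  rw [← mul_assoc, inv_mul_cancel₀ (pow_ne_zero _ h3), one_mul]

end Brg

end Vale.Agent.P299.H216
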