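import Vale.Agent.P299.H216.BrgG
import Vale.Agent.P299.H91.Loc

/-!
# P299 / H216: from quasi-plurisubharmonic weights on `X` to plurisubharmonic weights on the cover
-/

open scoped Manifold ContDiff Topology ComplexOrder
open MeasureTheory Filter Set
open Vale.Agent.P272.K (Cm Chart At jacM jmat cHess IsCanonicalMetric IsForm dz dzb cj)
open Vale.Agent.P300.L2 (Sheets)

set_option linter.all false

noncomputable section

namespace Vale.Agent.P299.H216

/-- A function `V` on `X` (measurable, nonpositive almost everywhere, locally integrable, with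
`exp (-d V)` locally integrable) with `Θ + i∂∂̄ V ≥ ε β` on `Om`, in the sense of distributions in the
charts. -/
structure XWeight {n : ℕ} {X : Type} [TopologicalSpace X] [ChartedSpace (Cm n) X]
    (Θ β : Chart n X → Cm n → Matrix (Fin n) (Fin n) ℂ) (Om : Set X) (V : X → ℝ) (ε d : ℝ) :
    Prop where
  meas : ∀ e ∈ atlas (Cm n) X,
    AEMeasurable (fun w => V (e.symm w)) (volume.restrict e.target)
  neg : ∀ e ∈ atlas (Cm n) X, ∀ᵐ w ∂(volume.restrict e.target), V (e.symm w) ≤ 0
  int : ∀ x : X, ∃ e : Chart n X, At e x ∧ ∃ O ∈ 𝓝 (e x),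
    IntegrableOn (fun w => V (e.symm w)) O
  exp : ∀ x : X, ∃ e : Chart n X, At e x ∧ ∃ O ∈ 𝓝 (e x),
    ∫⁻ w in O, ENNReal.ofReal (Real.exp (-d * V (e.symm w))) < ⊤
  test : ∀ e ∈ atlas (Cm n) X, ∀ H : Cm n → Matrix (Fin n) (Fin n) ℂ,
    (∀ l k, ContDiff ℝ ∞ fun w => H w l k) → (∀ l k, HasCompactSupport fun w => H w l k) →
    (∀ l k, tsupport (fun w => H w l k) ⊆ e.target ∩ e.symm ⁻¹' Om) →
    (∀ w, (H w).PosSemidef) →
    ε * ∫ w, (∑ l, ∑ k, H w l k * β e w k l).re ≤
      (∫ w, (∑ l, ∑ k, H w l k * Θ e w k l).re) +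
        ∫ w, V (e.symm w) * (∑ k, ∑ l, dz k (dzb l (fun y => H y l k)) w).re

namespace Brg

variable {n N : ℕ} {S : Sheets n N} {X : Type} [TopologicalSpace X] [ChartedSpace (Cm n) X]
  [Nonempty X] (B : Brg S X) [IsManifold 𝓘(ℂ, Cm n) ω X]

/-- the Levi form along a section -/
theorem levi_eq_lev {W : Set (Fin n → ℂ)} {s : (Fin n → ℂ) → ℕ} (hs : S.IsSection W s)
    {z : Fin n → ℂ} (hz : z ∈ W) (G : (Fin n → ℂ) × ℕ → ℝ) (β : Fin n → ℂ) :
    S.levi G β (z, s z) = lev (fun z => G (z, s z)) β z := levi_eq_cHess hs hz G β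

/-- **local test inequality on the cover** -/
theorem local_test [CompactSpace X] {φ : Chart n X → Cm n → ℝ} (hφ : IsCanonicalMetric φ)
    {Mb : Chart n X → Cm n → Matrix (Fin n) (Fin n) ℂ}
    (hMb : ∀ e e' x, At e x → At e' x → x ∈ B.Xo →
      Mb e (e x) = (jacM e e' x).transpose * Mb e' (e' x) * (jacM e e' x).map (starRingEnd ℂ))
    {G : (Fin n → ℂ) × ℕ → ℝ} (hG : S.CD 2 (fun q => (G q : ℂ)))
    (hGl : ∀ q ∈ S.M, ∀ β : Fin n → ℂ, S.levi G β q = B.frm Mb β q)
    {V : X → ℝ} {Om : Set X} {ε d : ℝ} (hOm : B.Xo ⊆ Om)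
    (hV : XWeight (fun e z => -cHess (φ e) z) Mb Om V ε d)
    {W : Set (Fin n → ℂ)} {s : (Fin n → ℂ) → ℕ} {e : Chart n X}
    {g : OpenPartialHomeomorph (Cm n) (Cm n)} (P : B.Patch W s e g)
    {χ : Cm n → ℝ} (hχ : ContDiff ℝ ∞ χ) (hc : HasCompactSupport χ) (hsub : tsupport χ ⊆ g.target)
    (h0 : ∀ z, 0 ≤ χ z) (β : Cm n) :
    0 ≤ ∫ z, ((-B.wt φ (z, s z)) + V (B.j (z, s z)) - ε * G (z, s z)) * lev χ β z := by
  have hgW : tsupport χ ⊆ W := hsub.trans P.tgt
  -- the inequality in the chart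
  have hT := hV.test e P.he (fun w => B.tm e g χ β w) (fun l k => P.tm_smooth hχ hc hsub β l k)
    (fun l k => P.tm_compact hc hsub β l k)
    (fun l k => (P.tm_tsupport hc hsub β l k).trans ((P.image_sub hsub).trans
      (fun w hw => ⟨P.src hw, hOm (P.key w hw).1⟩)))
    (fun w => Patch.tm_posSemidef h0 β w)
  rw [P.integral_form hMb, P.integral_form (M := fun e z => -cHess (φ e) z) (by
      intro e e' x h h' _
      have : cHess (φ e) (e x) = (jacM e e' x).transpose * cHess (φ e') (e' x) *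
          (jacM e e' x).map (starRingEnd ℂ) := Vale.Agent.P272.K.isForm_canonical
        (fun e x hx => (hφ.smooth e x hx).of_le two_le_infty) hφ.change e e' x h h'
      show -cHess (φ e) (e x) = _ * (-cHess (φ e') (e' x)) * _
      rw [this, Matrix.mul_neg, Matrix.neg_mul]),
    P.integral_pot hχ hc hsub β V] at hT
  -- the three integrals
  have hcut : ∀ (f : Cm n → ℝ), ∫ z in g.target, χ z * f z = ∫ z, χ z * f z := by
    intro f
    refine setIntegral_eq_integral_of_forall_compl_eq_zero fun z hz => ?_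
    rw [image_eq_zero_of_notMem_tsupport (fun h => hz (hsub h)), zero_mul]
  have hcut' : ∀ (f : Cm n → ℝ), ∫ z in g.target, f z * lev χ β z = ∫ z, f z * lev χ β z := by
    intro f
    refine setIntegral_eq_integral_of_forall_compl_eq_zero fun z hz => ?_
    rw [lev_eq_zero (fun h => hz (hsub h)), mul_zero]
  have hcd1 : ∀ z ∈ tsupport χ, ContDiffAt ℝ 2 (fun z => -B.wt φ (z, s z)) z := fun z hz =>
    ((B.wt_contDiffAt hφ P.hs (hgW hz)).of_le two_le_infty).neg
  have hcd2 : ∀ z ∈ tsupport χ, ContDiffAt ℝ 2 (fun z => G (z, s z)) z := fun z hz => by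
    have h1 := (hG W s P.hs).contDiffAt (P.hs.isOpen.mem_nhds (hgW hz))
    exact Complex.reCLM.contDiff.contDiffAt.comp z h1
  have e1 : ∫ z in g.target, χ z * B.frm Mb β (z, s z) =
      ∫ z, G (z, s z) * lev χ β z := by
    rw [← green hχ hc hcd2 β, ← hcut]
    refine setIntegral_congr_fun g.open_target.measurableSet fun z hz => ?_
    have hzW := P.tgt hz
    show χ z * B.frm Mb β (z, s z) = χ z * lev (fun z => G (z, s z)) β z
    rw [← hGl _ (P.hs.mem_M hzW) β, levi_eq_lev P.hs hzW]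
  have e2 : ∫ z in g.target, χ z * B.frm (fun e z => -cHess (φ e) z) β (z, s z) =
      ∫ z, (-B.wt φ (z, s z)) * lev χ β z := by
    rw [← green hχ hc hcd1 β, ← hcut]
    refine setIntegral_congr_fun g.open_target.measurableSet fun z hz => ?_
    have hzW := P.tgt hz
    show χ z * B.frm (fun e z => -cHess (φ e) z) β (z, s z) =
      χ z * lev (fun z => -B.wt φ (z, s z)) β z
    rw [frm_neg_wt hφ (P.hs.mem_M hzW) β, levi_eq_lev P.hs hzW]
  rw [e1, e2, hcut' (fun z => V (B.j (z, s z)))] at hT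
  -- integrability
  have hcomp : IsCompact (tsupport χ) := hc
  have i1 : Integrable (fun z => (-B.wt φ (z, s z)) * lev χ β z) :=
    integrable_mul_lev hχ hc β (ContinuousOn.integrableOn_compact hcomp
      (fun z hz => (hcd1 z hz).continuousAt.continuousWithinAt))
  have i2 : Integrable (fun z => G (z, s z) * lev χ β z) :=
    integrable_mul_lev hχ hc β (ContinuousOn.integrableOn_compact hcomp
      (fun z hz => (hcd2 z hz).continuousAt.continuousWithinAt))
  have i3 : Integrable (fun z => V (B.j (z, s z)) * lev χ β z) := by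
    refine integrable_mul_lev hχ hc β ?_
    exact sec_integrableOn P.hs (F := fun q => V (B.j q)) (B.aemeas_j hV.meas)
      hcomp.measurableSet hgW
      (B.integrableOn_j hφ hV.meas hV.int hcomp (hgW.trans P.hs.subset))
  have h5 : ∫ z, ((-B.wt φ (z, s z)) + V (B.j (z, s z)) - ε * G (z, s z)) * lev χ β z =
      (∫ z, (-B.wt φ (z, s z)) * lev χ β z) + (∫ z, V (B.j (z, s z)) * lev χ β z) -
        ε * ∫ z, G (z, s z) * lev χ β z := by
    have i13 : Integrable (fun z => (-B.wt φ (z, s z)) * lev χ β z +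
        V (B.j (z, s z)) * lev χ β z) := i1.add i3
    rw [← integral_const_mul, ← integral_add i1 i3, ← integral_sub i13 (i2.const_mul ε)]
    refine integral_congr_ae (Eventually.of_forall fun z => ?_)
    show ((-B.wt φ (z, s z)) + V (B.j (z, s z)) - ε * G (z, s z)) * lev χ β z =
      (-B.wt φ (z, s z)) * lev χ β z + V (B.j (z, s z)) * lev χ β z -
        ε * (G (z, s z) * lev χ β z)
    ring
  rw [h5]
  linarith

/-- **plurisubharmonicity on the cover** -/
theorem lpsh [CompactSpace X] {φ : Chart n X → Cm n → ℝ} (hφ : IsCanonicalMetric φ)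
    {Mb : Chart n X → Cm n → Matrix (Fin n) (Fin n) ℂ}
    (hMb : ∀ e e' x, At e x → At e' x → x ∈ B.Xo →
      Mb e (e x) = (jacM e e' x).transpose * Mb e' (e' x) * (jacM e e' x).map (starRingEnd ℂ))
    {G : (Fin n → ℂ) × ℕ → ℝ} (hG : S.CD 2 (fun q => (G q : ℂ)))
    (hGl : ∀ q ∈ S.M, ∀ β : Fin n → ℂ, S.levi G β q = B.frm Mb β q)
    {V : X → ℝ} {Om : Set X} {ε d : ℝ} (hOm : B.Xo ⊆ Om)
    (hV : XWeight (fun e z => -cHess (φ e) z) Mb Om V ε d) :
    H91.LPsh S (fun q => (-B.wt φ q) + V (B.j q) - ε * G q) := by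
  refine H91.LPsh.of_local ?_ ?_
  · intro C hC hCV
    have hmC : MeasurableSet {q : (Fin n → ℂ) × ℕ | q.1 ∈ C} := measurable_fst hC.measurableSet
    have hbd : ∀ {F : (Fin n → ℂ) × ℕ → ℝ}, S.CD 0 (fun q => (F q : ℂ)) →
        IntegrableOn F {q | q.1 ∈ C} S.μ := by
      intro F hF
      obtain ⟨b, hb⟩ := Sheets.exists_bound hF hC hCV
      refine IntegrableOn.of_bound (Sheets.μ_lt_top hC hCV)
        (aemeas_of_CD hF).restrict.aestronglyMeasurable b ?_
      filter_upwards [ae_restrict_of_ae Sheets.ae_mem_M, ae_restrict_mem hmC] with q hq hqC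
      have := hb q hq hqC
      rwa [Complex.norm_real] at this
    have h1 : IntegrableOn (fun q => -B.wt φ q) {q | q.1 ∈ C} S.μ := (hbd (B.wt_CD hφ 0)).neg
    have h2 : IntegrableOn G {q | q.1 ∈ C} S.μ := hbd (hG.mono (by norm_num))
    have h3 := B.integrableOn_j hφ hV.meas hV.int hC hCV
    exact (h1.add h3).sub (h2.const_mul ε)
  · intro q hq
    obtain ⟨W, s, e, g, P, hqt, hqs⟩ := B.exists_patch hq
    refine ⟨g.target, s, P.hs.mono g.open_target P.tgt, hqt, hqs, ?_⟩
    intro χ hχ hc hsub h0 β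
    exact B.local_test hφ hMb hG hGl hOm hV P hχ hc hsub h0 β

end Brg

end Vale.Agent.P299.H216
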