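import Vale.Agent.P299.H216.BrgI
import Vale.Agent.P272.K.INT.Wirt

/-!
# P299 / H216: Green's formula, measurability and integrability of functions on `X` read on the cover
-/

open scoped Manifold ContDiff Topology ComplexOrder
open MeasureTheory Filter Set
open Vale.Agent.P272.K (Cm Chart At jacM jmat cHess IsCanonicalMetric IsForm dz dzb cj)
open Vale.Agent.P300.L2 (Sheets)

set_option linter.all false

noncomputable section

namespace Vale.Agent.P299.H216

section green

variable {n : ℕ} {χ : Cm n → ℝ}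

/-- product with a cut-off function -/
theorem contDiff_cut {k : WithTop ℕ∞} (hk : k ≤ ∞) {ρ : Cm n → ℂ} (hρ : ContDiff ℝ ∞ ρ)
    {F : Cm n → ℂ} (hF : ∀ z ∈ tsupport ρ, ContDiffAt ℝ k F z) :
    ContDiff ℝ k (fun z => ρ z * F z) := by
  rw [contDiff_iff_contDiffAt]
  intro z
  by_cases hz : z ∈ tsupport ρ
  · exact (hρ.contDiffAt.of_le hk).mul (hF z hz)
  · have h1 : (fun z => ρ z * F z) =ᶠ[𝓝 z] fun _ => 0 := by
      filter_upwards [(isClosed_tsupport ρ).isOpen_compl.mem_nhds hz] with y hy
      rw [image_eq_zero_of_notMem_tsupport hy, zero_mul]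
    exact contDiffAt_const.congr_of_eventuallyEq h1

theorem compact_cut {ρ F : Cm n → ℂ} (hc : HasCompactSupport ρ) :
    HasCompactSupport (fun z => ρ z * F z) := hc.mul_right

theorem smooth_dz' {ρ : Cm n → ℂ} (hρ : ContDiff ℝ ∞ ρ) (i : Fin n) : ContDiff ℝ ∞ (dz i ρ) := by
  rw [contDiff_iff_contDiffAt]
  exact fun z => Vale.Agent.P272.K.INT.smooth_dz hρ.contDiffAt

theorem smooth_dzb' {ρ : Cm n → ℂ} (hρ : ContDiff ℝ ∞ ρ) (i : Fin n) :
    ContDiff ℝ ∞ (dzb i ρ) := by
  rw [contDiff_iff_contDiffAt]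
  exact fun z => Vale.Agent.P272.K.INT.smooth_dzb hρ.contDiffAt

theorem tsupport_dz {ρ : Cm n → ℂ} (i : Fin n) : tsupport (dz i ρ) ⊆ tsupport ρ := by
  refine closure_minimal ?_ (isClosed_tsupport ρ)
  intro z hz
  by_contra h
  refine hz ?_
  have h1 : ρ =ᶠ[𝓝 z] fun _ => 0 := by
    filter_upwards [(isClosed_tsupport ρ).isOpen_compl.mem_nhds h] with y hy
    exact image_eq_zero_of_notMem_tsupport hy
  rw [Vale.Agent.P272.K.dz_congr h1, Vale.Agent.P272.K.dz_const]

theorem tsupport_dzb {ρ : Cm n → ℂ} (i : Fin n) : tsupport (dzb i ρ) ⊆ tsupport ρ := by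
  refine closure_minimal ?_ (isClosed_tsupport ρ)
  intro z hz
  by_contra h
  refine hz ?_
  have h1 : ρ =ᶠ[𝓝 z] fun _ => 0 := by
    filter_upwards [(isClosed_tsupport ρ).isOpen_compl.mem_nhds h] with y hy
    exact image_eq_zero_of_notMem_tsupport hy
  rw [Vale.Agent.P272.K.dzb_congr h1, Vale.Agent.P272.K.dzb_const]

theorem compact_dz {ρ : Cm n → ℂ} (hc : HasCompactSupport ρ) (i : Fin n) :
    HasCompactSupport (dz i ρ) := hc.of_isClosed_subset (isClosed_tsupport _) (tsupport_dz i)

theorem compact_dzb {ρ : Cm n → ℂ} (hc : HasCompactSupport ρ) (i : Fin n) :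
    HasCompactSupport (dzb i ρ) := hc.of_isClosed_subset (isClosed_tsupport _) (tsupport_dzb i)

/-- **Green's formula**, complex entries -/
theorem green_entry {ρ : Cm n → ℂ} (hρ : ContDiff ℝ ∞ ρ) (hc : HasCompactSupport ρ)
    {f : Cm n → ℂ} (hf : ∀ z ∈ tsupport ρ, ContDiffAt ℝ 2 f z) (p q : Fin n) :
    ∫ z, ρ z * dz p (dzb q f) z = ∫ z, dz p (dzb q ρ) z * f z := by
  have e1 : ContDiff ℝ 1 (fun z => ρ z * dzb q f z) :=
    contDiff_cut (by exact_mod_cast nat_le_infty 1) hρ fun z hz =>
      Vale.Agent.P272.K.contDiffAt_dzb (hf z hz) (by norm_num)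
  have e2 : ContDiff ℝ 1 (fun z => dz p ρ z * f z) :=
    contDiff_cut (by exact_mod_cast nat_le_infty 1) (smooth_dz' hρ p) fun z hz =>
      (hf z (tsupport_dz p hz)).of_le (by norm_num)
  have i1 := Vale.Agent.P272.K.INT.integral_dz_eq_zero e1 (compact_cut hc) p
  have i2 := Vale.Agent.P272.K.INT.integral_dzb_eq_zero e2 (compact_cut (compact_dz hc p)) q
  -- the two divergences
  have c0 : Continuous (fun z => ρ z * dz p (dzb q f) z) :=
    (contDiff_cut (k := 0) (by simp) hρ fun z hz => Vale.Agent.P272.K.contDiffAt_dz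
      (Vale.Agent.P272.K.contDiffAt_dzb (m := 1) (hf z hz) (by norm_num)) (by norm_num)).continuous
  have c1 : Continuous (fun z => dz p (dzb q ρ) z * f z) :=
    (contDiff_cut (k := 0) (by simp) (smooth_dz' (smooth_dzb' hρ q) p) fun z hz =>
      (hf z (tsupport_dzb q (tsupport_dz p hz))).of_le (by norm_num)).continuous
  have c2 : Continuous (fun z => dz p ρ z * dzb q f z) :=
    (contDiff_cut (k := 0) (by simp) (smooth_dz' hρ p) fun z hz =>
      (Vale.Agent.P272.K.contDiffAt_dzb (m := 1) (hf z (tsupport_dz p hz))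
        (by norm_num)).of_le (by norm_num)).continuous
  have n0 : Integrable _ (volume : Measure (Cm n)) :=
    c0.integrable_of_hasCompactSupport (compact_cut hc)
  have n1 : Integrable _ (volume : Measure (Cm n)) :=
    c1.integrable_of_hasCompactSupport (compact_cut (compact_dz (compact_dzb hc q) p))
  have n2 : Integrable _ (volume : Measure (Cm n)) :=
    c2.integrable_of_hasCompactSupport (compact_cut (compact_dz hc p))
  have h1 : ∀ z, dz p (fun z => ρ z * dzb q f z) z =
      dz p ρ z * dzb q f z + ρ z * dz p (dzb q f) z := by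
    intro z
    by_cases hz : z ∈ tsupport ρ
    · exact Vale.Agent.P272.K.dz_mul (hρ.differentiable (by simp) z)
        (Vale.Agent.P272.K.differentiableAt_dzb (hf z hz))
    · have h2 : ρ =ᶠ[𝓝 z] fun _ => 0 := by
        filter_upwards [(isClosed_tsupport ρ).isOpen_compl.mem_nhds hz] with y hy
        exact image_eq_zero_of_notMem_tsupport hy
      have h3 : (fun z => ρ z * dzb q f z) =ᶠ[𝓝 z] fun _ => 0 := by
        filter_upwards [h2] with y hy
        rw [hy, zero_mul]
      rw [Vale.Agent.P272.K.dz_congr h3, Vale.Agent.P272.K.dz_congr h2, h2.self_of_nhds,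
        Vale.Agent.P272.K.dz_const]
      simp
  have h2 : ∀ z, dzb q (fun z => dz p ρ z * f z) z =
      dz p (dzb q ρ) z * f z + dz p ρ z * dzb q f z := by
    intro z
    by_cases hz : z ∈ tsupport ρ
    · rw [Vale.Agent.P272.K.dzb_mul ((smooth_dz' hρ p).differentiable (by simp) z)
        ((hf z hz).differentiableAt (by simp)),
        Vale.Agent.P272.K.dz_dzb_comm (hρ.contDiffAt.of_le two_le_infty)]
    · have h2 : ρ =ᶠ[𝓝 z] fun _ => 0 := by
        filter_upwards [(isClosed_tsupport ρ).isOpen_compl.mem_nhds hz] with y hy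
        exact image_eq_zero_of_notMem_tsupport hy
      have h4 : dz p ρ =ᶠ[𝓝 z] fun _ => 0 :=
        (Vale.Agent.P272.K.dz_congr_ev h2).trans
          (Eventually.of_forall fun y => Vale.Agent.P272.K.dz_const 0)
      have h5 : dzb q ρ =ᶠ[𝓝 z] fun _ => 0 :=
        (Vale.Agent.P272.K.dzb_congr_ev h2).trans
          (Eventually.of_forall fun y => Vale.Agent.P272.K.dzb_const 0)
      have h3 : (fun z => dz p ρ z * f z) =ᶠ[𝓝 z] fun _ => 0 := by
        filter_upwards [h4] with y hy
        rw [hy, zero_mul]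
      rw [Vale.Agent.P272.K.dzb_congr h3, Vale.Agent.P272.K.dz_congr h5, h4.self_of_nhds,
        Vale.Agent.P272.K.dzb_const, Vale.Agent.P272.K.dz_const]
      simp
  rw [integral_congr_ae (Eventually.of_forall h1), integral_add n2 n0] at i1
  rw [integral_congr_ae (Eventually.of_forall h2), integral_add n1 n2] at i2
  linear_combination i1 - i2

/-- **Green's formula** -/
theorem green {χ : Cm n → ℝ} (hχ : ContDiff ℝ ∞ χ) (hc : HasCompactSupport χ)
    {f : Cm n → ℝ} (hf : ∀ z ∈ tsupport χ, ContDiffAt ℝ 2 f z) (β : Cm n) :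
    ∫ z, χ z * lev f β z = ∫ z, f z * lev χ β z := by
  set ρ : Cm n → ℂ := fun z => (χ z : ℂ) with hρ
  have hρs : ContDiff ℝ ∞ ρ := by
    rw [contDiff_iff_contDiffAt]
    exact fun z => Vale.Agent.P272.K.ofReal_contDiffAt hχ.contDiffAt
  have hts : tsupport ρ ⊆ tsupport χ := by
    refine closure_mono ?_
    intro z hz
    simpa [hρ] using hz
  have hρc : HasCompactSupport ρ := hc.of_isClosed_subset (isClosed_tsupport _) hts
  have hfc : ∀ z ∈ tsupport ρ, ContDiffAt ℝ 2 (fun y => (f y : ℂ)) z := fun z hz =>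
    Vale.Agent.P272.K.ofReal_contDiffAt (hf z (hts hz))
  have hE := fun p q => green_entry hρs hρc hfc p q
  have c0 : ∀ p q, Integrable (fun z => ρ z * dz p (dzb q (fun y => (f y : ℂ))) z) := fun p q =>
    (contDiff_cut (k := 0) (by simp) hρs fun z hz => Vale.Agent.P272.K.contDiffAt_dz
      (Vale.Agent.P272.K.contDiffAt_dzb (m := 1) (hfc z hz) (by norm_num))
      (by norm_num)).continuous.integrable_of_hasCompactSupport (compact_cut hρc)
  have c1 : ∀ p q, Integrable (fun z => dz p (dzb q ρ) z * (f z : ℂ)) := fun p q =>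
    (contDiff_cut (k := 0) (by simp) (smooth_dz' (smooth_dzb' hρs q) p) fun z hz =>
      (hfc z (tsupport_dzb q (tsupport_dz p hz))).of_le
        (by norm_num)).continuous.integrable_of_hasCompactSupport
          (compact_cut (compact_dz (compact_dzb hρc q) p))
  have a1 : ∫ z, χ z * lev f β z = (∫ z, ∑ p, ∑ q, (β p * cj (β q)) *
      (ρ z * dz p (dzb q (fun y => (f y : ℂ))) z)).re := by
    have := integral_re (f := fun z => ∑ p, ∑ q, (β p * cj (β q)) *
      (ρ z * dz p (dzb q (fun y => (f y : ℂ))) z)) (μ := (volume : Measure (Cm n)))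
      (integrable_finsetSum _ fun p _ => integrable_finsetSum _ fun q _ =>
        (c0 p q).const_mul _)
    refine Eq.trans ?_ this
    refine integral_congr_ae (Eventually.of_forall fun z => ?_)
    show χ z * lev f β z = RCLike.re (∑ p, ∑ q, (β p * cj (β q)) *
      (ρ z * dz p (dzb q (fun y => (f y : ℂ))) z))
    have h1 : ∑ p, ∑ q, (β p * cj (β q)) * (ρ z * dz p (dzb q (fun y => (f y : ℂ))) z) =
        (χ z : ℂ) * ∑ p, ∑ q, cHess f z p q * β p * cj (β q) := by
      simp only [Finset.mul_sum]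
      refine Finset.sum_congr rfl fun p _ => Finset.sum_congr rfl fun q _ => ?_
      show _ = (χ z : ℂ) * (dz p (dzb q fun y => (f y : ℂ)) z * β p * cj (β q))
      simp only [hρ]
      ring
    rw [h1]
    show χ z * lev f β z = ((χ z : ℂ) * ∑ p, ∑ q, cHess f z p q * β p * cj (β q)).re
    rw [Complex.re_ofReal_mul, lev]
  have a2 : ∫ z, f z * lev χ β z = (∫ z, ∑ p, ∑ q, (β p * cj (β q)) *
      (dz p (dzb q ρ) z * (f z : ℂ))).re := by
    have := integral_re (f := fun z => ∑ p, ∑ q, (β p * cj (β q)) *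
      (dz p (dzb q ρ) z * (f z : ℂ))) (μ := (volume : Measure (Cm n)))
      (integrable_finsetSum _ fun p _ => integrable_finsetSum _ fun q _ =>
        (c1 p q).const_mul _)
    refine Eq.trans ?_ this
    refine integral_congr_ae (Eventually.of_forall fun z => ?_)
    show f z * lev χ β z = RCLike.re (∑ p, ∑ q, (β p * cj (β q)) *
      (dz p (dzb q ρ) z * (f z : ℂ)))
    have h1 : ∑ p, ∑ q, (β p * cj (β q)) * (dz p (dzb q ρ) z * (f z : ℂ)) =
        (f z : ℂ) * ∑ p, ∑ q, cHess χ z p q * β p * cj (β q) := by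
      simp only [Finset.mul_sum]
      refine Finset.sum_congr rfl fun p _ => Finset.sum_congr rfl fun q _ => ?_
      show _ = (f z : ℂ) * (dz p (dzb q fun y => (χ y : ℂ)) z * β p * cj (β q))
      ring
    rw [h1]
    show f z * lev χ β z = ((f z : ℂ) * ∑ p, ∑ q, cHess χ z p q * β p * cj (β q)).re
    rw [Complex.re_ofReal_mul, lev]
  rw [a1, a2]
  congr 1
  rw [integral_finsetSum _ fun p _ => integrable_finsetSum _ fun q _ => (c0 p q).const_mul _,
    integral_finsetSum _ fun p _ => integrable_finsetSum _ fun q _ => (c1 p q).const_mul _]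
  refine Finset.sum_congr rfl fun p _ => ?_
  rw [integral_finsetSum _ fun q _ => (c0 p q).const_mul _,
    integral_finsetSum _ fun q _ => (c1 p q).const_mul _]
  refine Finset.sum_congr rfl fun q _ => ?_
  rw [integral_const_mul, integral_const_mul, hE p q]

end green

end Vale.Agent.P299.H216
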