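import Vale.Agent.P299.H216.BrgF

/-!
# P299 / H216: functions on `X` read on the cover; local test inequalities
-/

open scoped Manifold ContDiff Topology ComplexOrder
open MeasureTheory Filter Set
open Vale.Agent.P272.K (Cm Chart At jacM jmat cHess IsCanonicalMetric IsForm dz dzb cj)
open Vale.Agent.P300.L2 (Sheets)

set_option linter.all false

noncomputable section

namespace Vale.Agent.P299.H216

section sec

variable {n N : ℕ} {S : Sheets n N} {W : Set (Fin n → ℂ)} {s : (Fin n → ℂ) → ℕ}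

theorem sec_ae (hs : S.IsSection W s) {P : (Fin n → ℂ) × ℕ → Prop} (h : ∀ᵐ q ∂S.μ, P q) :
    ∀ᵐ z ∂(volume.restrict W), P (z, s z) := by
  have h1 := Sheets.ae_μ_iff.1 h
  have h2 : ∀ᵐ z ∂(volume.restrict W), ∀ w ∈ S.fib z, P (z, w) :=
    ae_restrict_of_ae_restrict_of_subset hs.subset h1
  filter_upwards [h2, ae_restrict_mem hs.isOpen.measurableSet] with z hz hzW
  exact hz _ (hs.mem z hzW)

theorem sec_aemeas {α : Type*} [MeasurableSpace α] (hs : S.IsSection W s)
    {F : (Fin n → ℂ) × ℕ → α}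
    (hF : AEMeasurable F S.μ) : AEMeasurable (fun z => F (z, s z)) (volume.restrict W) := by
  obtain ⟨s', hs', hss⟩ := hs.exists_ext
  refine ⟨fun z => hF.mk F (z, s' z), hF.measurable_mk.comp (measurable_id.prodMk hs'), ?_⟩
  filter_upwards [sec_ae hs hF.ae_eq_mk, ae_restrict_mem hs.isOpen.measurableSet] with z hz hzW
  rw [hz, hss z hzW]

theorem lintegral_graph' (hs : S.IsSection W s) {A : Set (Fin n → ℂ)} (hA : MeasurableSet A)
    (hAW : A ⊆ W) {G : (Fin n → ℂ) × ℕ → ENNReal} (hG : AEMeasurable G S.μ) :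
    ∫⁻ q in {q : (Fin n → ℂ) × ℕ | q.1 ∈ A ∧ q.2 = s q.1}, G q ∂S.μ =
      ∫⁻ z in A, G (z, s z) := by
  rw [lintegral_congr_ae (ae_restrict_of_ae hG.ae_eq_mk),
    lintegral_graph hs hA hAW hG.measurable_mk]
  refine lintegral_congr_ae ?_
  have h1 := ae_restrict_of_ae_restrict_of_subset hAW (sec_ae hs hG.ae_eq_mk)
  filter_upwards [h1] with z hz using hz.symm

theorem sec_integrableOn (hs : S.IsSection W s) {F : (Fin n → ℂ) × ℕ → ℝ}
    (hF : AEMeasurable F S.μ) {C : Set (Fin n → ℂ)} (hC : MeasurableSet C) (hCW : C ⊆ W)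
    (hI : IntegrableOn F {q | q.1 ∈ C} S.μ) : IntegrableOn (fun z => F (z, s z)) C := by
  refine ⟨((sec_aemeas hs hF).mono_measure
    (Measure.restrict_mono hCW le_rfl)).aestronglyMeasurable, ?_⟩
  have h1 := hI.2
  rw [HasFiniteIntegral] at h1 ⊢
  refine lt_of_le_of_lt ?_ h1
  have h2 := lintegral_graph' hs hC hCW (G := fun q => ‖F q‖ₑ) hF.enorm
  rw [← h2]
  refine lintegral_mono' (Measure.restrict_mono ?_ le_rfl) le_rfl
  exact fun q hq => hq.1

end sec

theorem lev_eq_zero {n : ℕ} {χ : Cm n → ℝ} {β z : Cm n} (hz : z ∉ tsupport χ) :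
    lev χ β z = 0 := by
  have h1 : χ =ᶠ[𝓝 z] fun _ => 0 := by
    filter_upwards [(isClosed_tsupport χ).isOpen_compl.mem_nhds hz] with y hy
    exact image_eq_zero_of_notMem_tsupport hy
  have h2 : ∀ p q, cHess χ z p q = 0 := by
    intro p q
    rw [Vale.Agent.P272.K.cHess_congr h1]
    show dz p (dzb q fun y => ((0 : ℝ) : ℂ)) z = 0
    have h3 : dzb q (fun y : Cm n => ((0 : ℝ) : ℂ)) = fun _ => 0 := by
      funext y; exact Vale.Agent.P272.K.dzb_const _
    rw [h3]
    exact Vale.Agent.P272.K.dz_const _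
  simp [lev, h2]

theorem lev_continuous {n : ℕ} {χ : Cm n → ℝ} (hχ : ContDiff ℝ ∞ χ) (β : Cm n) :
    Continuous (lev χ β) := by
  have hρs : ContDiff ℝ ∞ (fun z => (χ z : ℂ)) := by
    rw [contDiff_iff_contDiffAt]
    exact fun z => Vale.Agent.P272.K.ofReal_contDiffAt hχ.contDiffAt
  have h1 : ∀ p q, Continuous (fun z => cHess χ z p q) := fun p q =>
    (smooth_dz' (smooth_dzb' hρs q) p).continuous
  refine Complex.continuous_re.comp ?_
  exact continuous_finsetSum _ fun p _ => continuous_finsetSum _ fun q _ =>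
    ((h1 p q).mul continuous_const).mul continuous_const

theorem lev_compact {n : ℕ} {χ : Cm n → ℝ} (hc : HasCompactSupport χ) (β : Cm n) :
    HasCompactSupport (lev χ β) := by
  refine hc.of_isClosed_subset (isClosed_tsupport _) (closure_minimal ?_ (isClosed_tsupport _))
  intro z hz
  by_contra h
  exact hz (lev_eq_zero h)

/-- products with `lev χ` are integrable -/
theorem integrable_mul_lev {n : ℕ} {χ : Cm n → ℝ} (hχ : ContDiff ℝ ∞ χ)
    (hc : HasCompactSupport χ) (β : Cm n) {f : Cm n → ℝ}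
    (hf : IntegrableOn f (tsupport χ)) : Integrable (fun z => f z * lev χ β z) := by
  have h1 : ∀ z, f z * lev χ β z = (tsupport χ).indicator f z * lev χ β z := by
    intro z
    by_cases hz : z ∈ tsupport χ
    · rw [indicator_of_mem hz]
    · rw [lev_eq_zero hz]; simp
  simp only [h1]
  have h2 : Integrable ((tsupport χ).indicator f) :=
    (integrable_indicator_iff (isClosed_tsupport χ).measurableSet).2 hf
  obtain ⟨C, hC⟩ := (lev_continuous hχ β).bounded_above_of_compact_support (lev_compact hc β)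
  exact h2.mul_bdd (lev_continuous hχ β).aestronglyMeasurable
    (Eventually.of_forall hC)

namespace Brg

variable {n N : ℕ} {S : Sheets n N} {X : Type} [TopologicalSpace X] [ChartedSpace (Cm n) X]
  [Nonempty X] (B : Brg S X) {e : Chart n X}

/-- the part of the cover seen in the chart `e` -/
def De (e : Chart n X) : Set ((Fin n → ℂ) × ℕ) := B.θe e '' B.T e

theorem mem_De {q : (Fin n → ℂ) × ℕ} (hq : q ∈ S.M) (he : B.j q ∈ e.source) : q ∈ B.De e :=
  ⟨e (B.j q), ⟨e.map_source he, by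
    show e.symm (e (B.j q)) ∈ B.Xo
    rw [e.left_inv he]; exact B.j_mem hq⟩, by
    show B.θ (e.symm (e (B.j q))) = q
    rw [e.left_inv he]; exact B.θ_j hq⟩

theorem j_θe {w : Cm n} (hw : w ∈ B.T e) : B.j (B.θe e w) = e.symm w := B.j_θ hw.2

theorem De_sub {q : (Fin n → ℂ) × ℕ} (hq : q ∈ B.De e) : q ∈ S.M ∧ B.j q ∈ e.source ∧
    e (B.j q) ∈ B.T e ∧ B.θe e (e (B.j q)) = q := by
  obtain ⟨w, hw, rfl⟩ := hq
  rw [B.j_θe hw]
  refine ⟨B.θe_mem hw, e.map_target hw.1, ?_, ?_⟩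
  · rw [e.right_inv hw.1]; exact hw
  · rw [e.right_inv hw.1]

variable [IsManifold 𝓘(ℂ, Cm n) ω X]

theorem De_meas (he : e ∈ atlas (Cm n) X) : MeasurableSet (B.De e) :=
  (B.cov he (B.T_open e).measurableSet Subset.rfl).1

theorem preimage_De_eq (A : Set (Cm n)) :
    B.De e ∩ {q | e (B.j q) ∈ A} = B.θe e '' (A ∩ B.T e) := by
  ext q
  constructor
  · rintro ⟨hq, hA⟩
    obtain ⟨h1, h2, h3, h4⟩ := B.De_sub hq
    exact ⟨e (B.j q), ⟨hA, h3⟩, h4⟩
  · rintro ⟨w, ⟨hA, hw⟩, rfl⟩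
    refine ⟨⟨w, hw, rfl⟩, ?_⟩
    show e (B.j (B.θe e w)) ∈ A
    rw [B.j_θe hw, e.right_inv hw.1]; exact hA

theorem preimage_De (he : e ∈ atlas (Cm n) X) {A : Set (Cm n)} (hA : MeasurableSet A) :
    MeasurableSet (B.De e ∩ {q | e (B.j q) ∈ A}) := by
  rw [B.preimage_De_eq]
  exact (B.cov he (hA.inter (B.T_open e).measurableSet) inter_subset_right).1

theorem null_image (he : e ∈ atlas (Cm n) X) {Z : Set (Cm n)} (hZ : volume Z = 0) :
    S.μ (B.De e ∩ {q | e (B.j q) ∈ Z}) = 0 := by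
  set Z' := toMeasurable volume Z with hZ'
  have h0 : volume Z' = 0 := by rw [hZ', measure_toMeasurable, hZ]
  have hm : MeasurableSet Z' := measurableSet_toMeasurable _ _
  refine measure_mono_null (t := B.De e ∩ {q | e (B.j q) ∈ Z'})
    (fun q hq => ⟨hq.1, subset_toMeasurable _ _ hq.2⟩) ?_
  rw [B.preimage_De_eq]
  have h1 := (B.cov he (hm.inter (B.T_open e).measurableSet)
    inter_subset_right).2 (fun _ => 1) measurable_const
  rw [setLIntegral_one] at h1
  rw [← h1]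
  refine setLIntegral_measure_zero _ _ ?_
  exact measure_mono_null inter_subset_left h0

/-- the chart read on the cover -/
theorem meas_chart (he : e ∈ atlas (Cm n) X) : ∃ f : (Fin n → ℂ) × ℕ → Cm n, Measurable f ∧
    ∀ q ∈ B.De e, f q = e (B.j q) := by
  classical
  refine ⟨(B.De e).piecewise (fun q => e (B.j q)) (fun _ => 0), ?_, fun q hq =>
    piecewise_eq_of_mem _ _ _ hq⟩
  intro A hA
  rw [piecewise_preimage]
  have h1 : MeasurableSet (B.De e ∩ (fun q => e (B.j q)) ⁻¹' A) := B.preimage_De he hA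
  have h2 : MeasurableSet (((fun _ => 0 : (Fin n → ℂ) × ℕ → Cm n) ⁻¹' A) \ B.De e) :=
    (measurable_const hA).diff (B.De_meas he)
  convert h1.union h2 using 1
  unfold Set.ite
  rw [inter_comm]

theorem ae_chart (he : e ∈ atlas (Cm n) X) {P : Cm n → Prop}
    (h : ∀ᵐ w ∂(volume.restrict e.target), P w) :
    ∀ᵐ q ∂(S.μ.restrict (B.De e)), P (e (B.j q)) := by
  have h1 : volume {w | w ∈ e.target ∧ ¬ P w} = 0 := by
    rw [ae_restrict_iff' e.open_target.measurableSet, ae_iff] at h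
    refine measure_mono_null ?_ h
    intro w hw hP
    exact hw.2 (hP hw.1)
  have h2 := B.null_image he h1
  rw [ae_restrict_iff' (B.De_meas he), ae_iff]
  refine measure_mono_null ?_ h2
  intro q hq
  simp only [mem_setOf_eq, Classical.not_imp] at hq
  exact ⟨hq.1, (B.De_sub hq.1).2.2.1.1, hq.2⟩

theorem aemeas_chart {α : Type*} [MeasurableSpace α] (he : e ∈ atlas (Cm n) X) {V' : Cm n → α}
    (hV : AEMeasurable V' (volume.restrict e.target)) :
    AEMeasurable (fun q => V' (e (B.j q))) (S.μ.restrict (B.De e)) := by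
  obtain ⟨f, hf, hfe⟩ := B.meas_chart he
  refine ⟨fun q => hV.mk V' (f q), hV.measurable_mk.comp hf, ?_⟩
  filter_upwards [B.ae_chart he hV.ae_eq_mk, ae_restrict_mem (B.De_meas he)] with q hq hqD
  rw [hq, hfe q hqD]

/-- finite cover of the total space by chart domains -/
theorem exists_cover [CompactSpace X] : ∃ t : Finset X,
    S.μ.restrict (⋃ x : t, B.De (chartAt (Cm n) (x : X))) = S.μ := by
  obtain ⟨t, ht⟩ := CompactSpace.elim_nhds_subcover (fun x : X => (chartAt (Cm n) x).source)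
    (fun x => (chartAt (Cm n) x).open_source.mem_nhds (mem_chart_source (Cm n) x))
  refine ⟨t, Measure.restrict_eq_self_of_ae_mem ?_⟩
  filter_upwards [Sheets.ae_mem_M] with q hq
  have h5 : B.j q ∈ ⋃ x ∈ t, (chartAt (Cm n) x).source := ht ▸ mem_univ _
  obtain ⟨x, hxt, hxs⟩ := mem_iUnion₂.1 h5
  exact mem_iUnion.2 ⟨⟨x, hxt⟩, B.mem_De hq hxs⟩

theorem ae_j [CompactSpace X] {P : X → Prop}
    (h : ∀ e ∈ atlas (Cm n) X, ∀ᵐ w ∂(volume.restrict e.target), P (e.symm w)) :
    ∀ᵐ q ∂S.μ, P (B.j q) := by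
  obtain ⟨t, ht⟩ := B.exists_cover
  rw [← ht, ae_restrict_iUnion_iff]
  rintro ⟨x, hx⟩
  have he := chart_mem_atlas (Cm n) x
  filter_upwards [B.ae_chart he (h _ he), ae_restrict_mem (B.De_meas he)] with q hq hqD
  rwa [(chartAt (Cm n) x).left_inv (B.De_sub hqD).2.1] at hq

theorem aemeas_j [CompactSpace X] {α : Type*} [MeasurableSpace α] {V : X → α}
    (h : ∀ e ∈ atlas (Cm n) X, AEMeasurable (fun w => V (e.symm w)) (volume.restrict e.target)) :
    AEMeasurable (fun q => V (B.j q)) S.μ := by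
  obtain ⟨t, ht⟩ := B.exists_cover
  rw [← ht, aemeasurable_iUnion_iff]
  rintro ⟨x, hx⟩
  have he := chart_mem_atlas (Cm n) x
  refine (B.aemeas_chart he (h _ he)).congr ?_
  filter_upwards [ae_restrict_mem (B.De_meas he)] with q hqD
  rw [(chartAt (Cm n) x).left_inv (B.De_sub hqD).2.1]

/-- integrals of functions on `X` against the volume `exp φ`, read on the cover -/
theorem lintegral_wt_lt_top [CompactSpace X] {φ : Chart n X → Cm n → ℝ}
    (hφ : IsCanonicalMetric φ) {F : X → ENNReal}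
    (hm : ∀ e ∈ atlas (Cm n) X, AEMeasurable (fun w => F (e.symm w)) (volume.restrict e.target))
    (hloc : ∀ x : X, ∃ e : Chart n X, At e x ∧ ∃ O ∈ 𝓝 (e x), ∫⁻ w in O, F (e.symm w) < ⊤) :
    ∫⁻ q, ENNReal.ofReal (Real.exp (B.wt φ q)) * F (B.j q) ∂S.μ < ⊤ := by
  have hm1 : AEMeasurable (fun q => ENNReal.ofReal (Real.exp (B.wt φ q))) S.μ :=
    (Real.measurable_exp.comp_aemeasurable (aemeas_of_CD (B.wt_CD hφ 0))).ennreal_ofReal
  refine B.lintegral_lt_top (hm1.mul (B.aemeas_j hm)) fun x => ?_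
  obtain ⟨e, hx, O, hO, hfin⟩ := hloc x
  have hc : ContinuousAt (φ e) (e x) := (hφ.smooth e x hx).continuousAt
  have h1 : ∀ᶠ w in 𝓝 (e x), φ e w < φ e (e x) + 1 :=
    hc.eventually (gt_mem_nhds (lt_add_one _))
  refine ⟨e, hx, O ∩ {w | φ e w < φ e (e x) + 1}, Filter.inter_mem hO h1, fun A hA hAO => ?_⟩
  have hAm : MeasurableSet (A ∩ B.T e) := (hA.inter (B.T_open e)).measurableSet
  calc ∫⁻ w in A ∩ B.T e, B.den e w *
        (ENNReal.ofReal (Real.exp (B.wt φ (B.θe e w))) * F (B.j (B.θe e w)))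
      ≤ ∫⁻ w in A ∩ B.T e, ENNReal.ofReal (Real.exp (φ e (e x) + 1)) * F (e.symm w) := by
        refine setLIntegral_mono' hAm fun w hw => ?_
        rw [← mul_assoc, B.den_mul_exp_wt hφ hx.1 hw.2, B.j_θe hw.2]
        gcongr
        exact (hAO hw.1).2.le
    _ = ENNReal.ofReal (Real.exp (φ e (e x) + 1)) * ∫⁻ w in A ∩ B.T e, F (e.symm w) := by
        rw [lintegral_const_mul' _ _ ENNReal.ofReal_ne_top]
    _ < ⊤ := by
        refine ENNReal.mul_lt_top ENNReal.ofReal_lt_top (lt_of_le_of_lt ?_ hfin)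
        exact lintegral_mono' (Measure.restrict_mono
          (fun w hw => (hAO hw.1).1) le_rfl) le_rfl

/-- local integrability -/
theorem integrableOn_j [CompactSpace X] {φ : Chart n X → Cm n → ℝ}
    (hφ : IsCanonicalMetric φ) {V : X → ℝ}
    (hm : ∀ e ∈ atlas (Cm n) X, AEMeasurable (fun w => V (e.symm w)) (volume.restrict e.target))
    (hloc : ∀ x : X, ∃ e : Chart n X, At e x ∧ ∃ O ∈ 𝓝 (e x),
      IntegrableOn (fun w => V (e.symm w)) O)
    {C : Set (Fin n → ℂ)} (hC : IsCompact C) (hCV : C ⊆ S.V) :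
    IntegrableOn (fun q => V (B.j q)) {q | q.1 ∈ C} S.μ := by
  have h1 := B.lintegral_wt_lt_top hφ (F := fun x => ‖V x‖ₑ) (fun e he => (hm e he).enorm)
    (fun x => by
      obtain ⟨e, hx, O, hO, h⟩ := hloc x
      exact ⟨e, hx, O, hO, h.2⟩)
  refine ⟨(B.aemeas_j hm).restrict.aestronglyMeasurable, ?_⟩
  have hu : S.CD 0 (fun q => ((Real.exp (B.wt φ q) : ℝ) : ℂ)) :=
    Sheets.CD.comp_real (φ := Real.exp) Real.contDiff_exp (B.wt_CD hφ 0)
  obtain ⟨c, hc, hb⟩ := Sheets.exists_pos_bound hu (fun q _ => Real.exp_pos _) hC hCV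
  rw [HasFiniteIntegral]
  have hmC : MeasurableSet {q : (Fin n → ℂ) × ℕ | q.1 ∈ C} := measurable_fst hC.measurableSet
  have h2 : ∫⁻ q in {q | q.1 ∈ C}, ‖V (B.j q)‖ₑ ∂S.μ ≤
      ENNReal.ofReal c⁻¹ * ∫⁻ q, ENNReal.ofReal (Real.exp (B.wt φ q)) * ‖V (B.j q)‖ₑ ∂S.μ := by
    rw [← lintegral_const_mul' _ _ ENNReal.ofReal_ne_top]
    refine (lintegral_mono_ae ?_).trans
      (lintegral_mono' Measure.restrict_le_self le_rfl)
    filter_upwards [ae_restrict_of_ae Sheets.ae_mem_M, ae_restrict_mem hmC] with q hq hqC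
    rw [← mul_assoc, ← ENNReal.ofReal_mul (by positivity)]
    have h3 : 1 ≤ c⁻¹ * Real.exp (B.wt φ q) := by
      rw [inv_mul_eq_div, one_le_div hc]
      exact hb q hq hqC
    calc ‖V (B.j q)‖ₑ = 1 * ‖V (B.j q)‖ₑ := (one_mul _).symm
      _ ≤ _ := by
        gcongr
        rw [← ENNReal.ofReal_one]
        exact ENNReal.ofReal_le_ofReal h3
  exact h2.trans_lt (ENNReal.mul_lt_top ENNReal.ofReal_lt_top h1)

/-- **exponential integrability** -/
theorem lintegral_exp_lt_top [CompactSpace X] {φ : Chart n X → Cm n → ℝ}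
    (hφ : IsCanonicalMetric φ) {V : X → ℝ} {d : ℝ}
    (hm : ∀ e ∈ atlas (Cm n) X, AEMeasurable (fun w => V (e.symm w)) (volume.restrict e.target))
    (hloc : ∀ x : X, ∃ e : Chart n X, At e x ∧ ∃ O ∈ 𝓝 (e x),
      ∫⁻ w in O, ENNReal.ofReal (Real.exp (-d * V (e.symm w))) < ⊤) :
    ∫⁻ q, ENNReal.ofReal (Real.exp (-((-B.wt φ q) + d * V (B.j q)))) ∂S.μ < ⊤ := by
  have h1 := B.lintegral_wt_lt_top hφ (F := fun x => ENNReal.ofReal (Real.exp (-d * V x)))
    (fun e he => (Real.measurable_exp.comp_aemeasurable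
      ((hm e he).const_mul (-d))).ennreal_ofReal) hloc
  refine lt_of_eq_of_lt (lintegral_congr fun q => ?_) h1
  rw [← ENNReal.ofReal_mul (Real.exp_pos _).le, ← Real.exp_add]
  congr 2
  ring

end Brg

end Vale.Agent.P299.H216
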