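import Vale.Agent.P299.H216.BrgP

/-!
# P299 / H216: conversion of chart tests to tests on the étale cover
-/

open scoped Manifold ContDiff Topology ComplexOrder
open MeasureTheory Filter Set
open Vale.Agent.P272.K (Cm Chart At jacM jmat cHess IsCanonicalMetric IsForm dz dzb cj)
open Vale.Agent.P300.L2 (Sheets)

set_option linter.all false

noncomputable section

namespace Vale.Agent.P299.H216

/-- the Levi form of a function on `ℂⁿ` -/
def lev {n : ℕ} (κ : Cm n → ℝ) (β : Cm n) (z : Cm n) : ℝ :=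
  (∑ p, ∑ q, cHess κ z p q * β p * cj (β q)).re

namespace Brg

variable {n N : ℕ} {S : Sheets n N} {X : Type} [TopologicalSpace X] [ChartedSpace (Cm n) X]
  [Nonempty X] (B : Brg S X)

/-- a local trivialisation of the bridge -/
structure Patch (W : Set (Fin n → ℂ)) (s : (Fin n → ℂ) → ℕ) (e : Chart n X)
    (g : OpenPartialHomeomorph (Cm n) (Cm n)) : Prop where
  he : e ∈ atlas (Cm n) X
  hs : S.IsSection W s
  src : g.source ⊆ e.target
  tgt : g.target ⊆ W
  key : ∀ w ∈ g.source, e.symm w ∈ B.Xo ∧ g w = B.cf e w ∧ B.θ (e.symm w) = (g w, s (g w))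
  inv : ∀ z ∈ g.target, AnalyticAt ℂ g.symm z ∧ B.j (z, s z) = e.symm (g.symm z) ∧
    At e (B.j (z, s z)) ∧ e (B.j (z, s z)) = g.symm z

theorem exists_patch {q : (Fin n → ℂ) × ℕ} (hq : q ∈ S.M) : ∃ W s e g, B.Patch W s e g ∧
    q.1 ∈ g.target ∧ s q.1 = q.2 := by
  obtain ⟨s, W, hs, hz, hsq⟩ := Sheets.exists_section hq
  have he : At (B.ce q) (B.j (q.1, s q.1)) := by rw [hsq]; exact B.ce_at q
  obtain ⟨g, h1, h2, h3, h4, h5, h6⟩ := B.lift hs hz he
  exact ⟨W, s, B.ce q, g, ⟨he.1, hs, h1, h3, h5, h6⟩, h4, hsq⟩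

variable {B} {W : Set (Fin n → ℂ)} {s : (Fin n → ℂ) → ℕ} {e : Chart n X}
  {g : OpenPartialHomeomorph (Cm n) (Cm n)}

namespace Patch

variable (P : B.Patch W s e g)
include P

theorem sub_T : g.source ⊆ B.T e := fun w hw => ⟨P.src hw, (P.key w hw).1⟩

theorem cf_an {w : Cm n} (hw : w ∈ g.source) : AnalyticAt ℂ (B.cf e) w :=
  B.cf_contAt P.he (P.sub_T hw)

theorem cf_mem {w : Cm n} (hw : w ∈ g.source) : B.cf e w ∈ g.target := by
  rw [← (P.key w hw).2.1]; exact g.map_source hw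

theorem j_cf {w : Cm n} (hw : w ∈ g.source) : B.j (B.cf e w, s (B.cf e w)) = e.symm w := by
  obtain ⟨h1, h2, h3⟩ := P.key w hw
  rw [← h2, ← h3]
  exact B.j_θ h1

theorem image_cf : B.cf e '' g.source = g.target := by
  rw [← g.image_source_eq_target]
  exact image_congr fun w hw => (P.key w hw).2.1.symm

theorem inj_cf : InjOn (B.cf e) g.source := by
  intro w hw w' hw' h
  rw [← (P.key w hw).2.1, ← (P.key w' hw').2.1] at h
  exact g.injOn hw hw' h

theorem jmat_eq {w : Cm n} (hw : w ∈ g.source) : jmat (B.cf e) w = B.J e (e.symm w) := by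
  rw [J, e.right_inv (P.src hw)]

/-- **change of variables in a patch** -/
theorem integral_eq (F : Cm n → ℝ) :
    ∫ z in g.target, F z = ∫ w in g.source, ‖(jmat (B.cf e) w).det‖ ^ 2 * F (B.cf e w) := by
  have hd : ∀ w ∈ g.source, HasFDerivWithinAt (B.cf e) (fderiv ℝ (B.cf e) w) g.source w :=
    fun w hw => ((P.cf_an hw).differentiableAt.restrictScalars ℝ).hasFDerivAt.hasFDerivWithinAt
  rw [← P.image_cf, integral_image_eq_integral_abs_det_fderiv_smul volume
    g.open_source.measurableSet hd P.inj_cf]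
  refine setIntegral_congr_fun g.open_source.measurableSet fun w hw => ?_
  have h1 : (fderiv ℝ (B.cf e) w).det = ‖(jmat (B.cf e) w).det‖ ^ 2 :=
    Vale.Agent.P272.K.INT.det_fderiv_real (P.cf_an hw).differentiableAt
  show |(fderiv ℝ (B.cf e) w).det| • F (B.cf e w) = _
  rw [h1, abs_of_nonneg (by positivity), smul_eq_mul]

end Patch

variable (B)

/-- the test matrix in the chart attached to a test function in the coordinates of the cover -/
def tm (e : Chart n X) (g : OpenPartialHomeomorph (Cm n) (Cm n)) (κ : Cm n → ℝ) (β : Cm n)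
    (w : Cm n) : Matrix (Fin n) (Fin n) ℂ := Matrix.of fun l k =>
  g.source.indicator
    (fun w => (κ (B.cf e w) : ℂ) * adv (B.cf e) β w k * cj (adv (B.cf e) β w l)) w

theorem tm_pos {e : Chart n X} {g : OpenPartialHomeomorph (Cm n) (Cm n)} {κ : Cm n → ℝ}
    {β w : Cm n} (hw : w ∈ g.source) (l k : Fin n) : B.tm e g κ β w l k =
      (κ (B.cf e w) : ℂ) * adv (B.cf e) β w k * cj (adv (B.cf e) β w l) :=
  indicator_of_mem hw (fun w => (κ (B.cf e w) : ℂ) * adv (B.cf e) β w k *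
    cj (adv (B.cf e) β w l))

theorem tm_neg {e : Chart n X} {g : OpenPartialHomeomorph (Cm n) (Cm n)} {κ : Cm n → ℝ}
    {β w : Cm n} (hw : w ∉ g.source) (l k : Fin n) : B.tm e g κ β w l k = 0 :=
  indicator_of_notMem hw (fun w => (κ (B.cf e w) : ℂ) * adv (B.cf e) β w k *
    cj (adv (B.cf e) β w l))

variable {B}

namespace Patch

variable (P : B.Patch W s e g)
include P

/-- the compact set outside of which the test matrix vanishes -/
theorem tm_zero {κ : Cm n → ℝ} {β w : Cm n} (hw : w ∉ g.symm '' tsupport κ) :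
    B.tm e g κ β w = 0 := by
  ext l k
  show B.tm e g κ β w l k = 0
  by_cases h : w ∈ g.source
  · have h1 : B.cf e w ∉ tsupport κ := by
      intro h2
      refine hw ⟨B.cf e w, h2, ?_⟩
      rw [← (P.key w h).2.1]
      exact g.left_inv h
    rw [B.tm_pos h, image_eq_zero_of_notMem_tsupport h1]
    simp
  · exact B.tm_neg h l k

theorem compact_image {κ : Cm n → ℝ} (hc : HasCompactSupport κ) (hsub : tsupport κ ⊆ g.target) :
    IsCompact (g.symm '' tsupport κ) := by
  refine hc.isCompact.image_of_continuousOn ?_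
  exact g.continuousOn_symm.mono hsub

theorem image_sub {κ : Cm n → ℝ} (hsub : tsupport κ ⊆ g.target) :
    g.symm '' tsupport κ ⊆ g.source := by
  rintro _ ⟨z, hz, rfl⟩
  exact g.map_target (hsub hz)

theorem cf_cd {w : Cm n} (hw : w ∈ g.source) : ContDiffAt ℂ ω (B.cf e) w :=
  (P.cf_an hw).contDiffAt

/-- the test matrix is smooth -/
theorem tm_smooth {κ : Cm n → ℝ} (hκ : ContDiff ℝ ∞ κ) (hc : HasCompactSupport κ)
    (hsub : tsupport κ ⊆ g.target) (β : Cm n) (l k : Fin n) :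
    ContDiff ℝ ∞ fun w => B.tm e g κ β w l k := by
  rw [contDiff_iff_contDiffAt]
  intro w
  by_cases hw : w ∈ g.symm '' tsupport κ
  · have hws := P.image_sub hsub hw
    have h1 : (fun w => B.tm e g κ β w l k) =ᶠ[𝓝 w] fun w =>
        (κ (B.cf e w) : ℂ) * adv (B.cf e) β w k * cj (adv (B.cf e) β w l) := by
      filter_upwards [g.open_source.mem_nhds hws] with y hy
      exact B.tm_pos hy l k
    refine ContDiffAt.congr_of_eventuallyEq ?_ h1
    have e1 : ContDiffAt ℝ ∞ (fun y => (κ (B.cf e y) : ℂ)) w := by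
      have e0 : ContDiffAt ℝ ∞ (fun y => κ (B.cf e y)) w :=
        ContDiffAt.comp w (g := κ) hκ.contDiffAt
          (((P.cf_cd hws).restrict_scalars ℝ).of_le (by exact le_top))
      exact Vale.Agent.P272.K.ofReal_contDiffAt e0
    have e2 : ∀ k, ContDiffAt ℝ ∞ (fun y => adv (B.cf e) β y k) w := fun k =>
      ((adv_holo (P.cf_cd hws) k).restrict_scalars ℝ).of_le (by exact le_top)
    have e3 : ContDiffAt ℝ ∞ (fun y => cj (adv (B.cf e) β y l)) w :=
      Complex.conjCLE.contDiff.contDiffAt.comp w (e2 l)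
    exact (e1.mul (e2 k)).mul e3
  · have hcl : IsClosed (g.symm '' tsupport κ) := (P.compact_image hc hsub).isClosed
    have h1 : (fun w => B.tm e g κ β w l k) =ᶠ[𝓝 w] fun _ => 0 := by
      filter_upwards [hcl.isOpen_compl.mem_nhds hw] with y hy
      rw [P.tm_zero hy]
      rfl
    exact contDiffAt_const.congr_of_eventuallyEq h1

theorem tm_tsupport {κ : Cm n → ℝ} (hc : HasCompactSupport κ)
    (hsub : tsupport κ ⊆ g.target) (β : Cm n) (l k : Fin n) :
    tsupport (fun w => B.tm e g κ β w l k) ⊆ g.symm '' tsupport κ := by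
  refine closure_minimal ?_ (P.compact_image hc hsub).isClosed
  intro w hw
  by_contra h
  exact hw (by show B.tm e g κ β w l k = 0; rw [P.tm_zero h]; rfl)

theorem tm_compact {κ : Cm n → ℝ} (hc : HasCompactSupport κ)
    (hsub : tsupport κ ⊆ g.target) (β : Cm n) (l k : Fin n) :
    HasCompactSupport (fun w => B.tm e g κ β w l k) :=
  (P.compact_image hc hsub).of_isClosed_subset (isClosed_tsupport _) (P.tm_tsupport hc hsub β l k)

omit P in
/-- the test matrix is positive semidefinite -/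
theorem tm_posSemidef {κ : Cm n → ℝ} (h0 : ∀ z, 0 ≤ κ z) (β w : Cm n) :
    (B.tm e g κ β w).PosSemidef := by
  by_cases hw : w ∈ g.source
  · have h1 : B.tm e g κ β w = ((κ (B.cf e w) : ℝ) : ℂ) • Matrix.vecMulVec
        (star (adv (B.cf e) β w)) (star (star (adv (B.cf e) β w))) := by
      ext l k
      rw [B.tm_pos hw, Matrix.smul_apply, Matrix.vecMulVec_apply, star_star]
      simp only [Pi.star_apply, RCLike.star_def, smul_eq_mul, cj]
      ring
    rw [h1]
    exact (Matrix.posSemidef_vecMulVec_self_star _).smul (by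
      rw [Complex.nonneg_iff]; exact ⟨h0 _, rfl⟩)
  · have h1 : B.tm e g κ β w = 0 := by
      ext l k
      exact B.tm_neg hw l k
    rw [h1]; exact Matrix.PosSemidef.zero

/-- the Laplacian-type expression of the test matrix -/
theorem tm_dd {κ : Cm n → ℝ} (hκ : ContDiff ℝ ∞ κ) {β w : Cm n} (hw : w ∈ g.source) :
    ∑ k, ∑ l, dz k (dzb l (fun y => B.tm e g κ β y l k)) w =
      ((‖(jmat (B.cf e) w).det‖ ^ 2 : ℝ) : ℂ) *
        ∑ p, ∑ q, cHess κ (B.cf e w) p q * β p * cj (β q) := by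
  rw [← dd_test (P.cf_cd hw) (hκ.contDiffAt.of_le two_le_infty)]
  refine Finset.sum_congr rfl fun k _ => Finset.sum_congr rfl fun l _ => ?_
  refine Vale.Agent.P272.K.dz_congr ?_
  have h1 : (fun w => B.tm e g κ β w l k) =ᶠ[𝓝 w] fun w =>
      (κ (B.cf e w) : ℂ) * adv (B.cf e) β w k * cj (adv (B.cf e) β w l) := by
    filter_upwards [g.open_source.mem_nhds hw] with y hy
    exact B.tm_pos hy l k
  exact Vale.Agent.P272.K.dzb_congr_ev h1

theorem tm_dd_out {κ : Cm n → ℝ} (hc : HasCompactSupport κ) (hsub : tsupport κ ⊆ g.target)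
    {β w : Cm n} (hw : w ∉ g.source) :
    ∑ k, ∑ l, dz k (dzb l (fun y => B.tm e g κ β y l k)) w = 0 := by
  have hcl : IsClosed (g.symm '' tsupport κ) := (P.compact_image hc hsub).isClosed
  have hw' : w ∉ g.symm '' tsupport κ := fun h => hw (P.image_sub hsub h)
  refine Finset.sum_eq_zero fun k _ => Finset.sum_eq_zero fun l _ => ?_
  have h1 : (fun y => B.tm e g κ β y l k) =ᶠ[𝓝 w] fun _ => 0 := by
    filter_upwards [hcl.isOpen_compl.mem_nhds hw'] with y hy
    rw [P.tm_zero hy]; rfl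
  have h2 : dzb l (fun y => B.tm e g κ β y l k) =ᶠ[𝓝 w] fun _ => 0 := by
    refine (Vale.Agent.P272.K.dzb_congr_ev h1).trans (Eventually.of_forall fun y => ?_)
    exact Vale.Agent.P272.K.dzb_const 0
  rw [Vale.Agent.P272.K.dz_congr h2, Vale.Agent.P272.K.dz_const]

/-- **conversion of the potential term** -/
theorem integral_pot {κ : Cm n → ℝ} (hκ : ContDiff ℝ ∞ κ) (hc : HasCompactSupport κ)
    (hsub : tsupport κ ⊆ g.target) (β : Cm n) (V : X → ℝ) :
    ∫ w, V (e.symm w) * (∑ k, ∑ l, dz k (dzb l (fun y => B.tm e g κ β y l k)) w).re =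
      ∫ z in g.target, V (B.j (z, s z)) * lev κ β z := by
  rw [P.integral_eq]
  have h1 : ∫ w, V (e.symm w) * (∑ k, ∑ l, dz k (dzb l (fun y => B.tm e g κ β y l k)) w).re =
      ∫ w in g.source,
        V (e.symm w) * (∑ k, ∑ l, dz k (dzb l (fun y => B.tm e g κ β y l k)) w).re := by
    rw [setIntegral_eq_integral_of_forall_compl_eq_zero]
    intro w hw
    rw [P.tm_dd_out hc hsub hw]
    simp
  rw [h1]
  refine setIntegral_congr_fun g.open_source.measurableSet fun w hw => ?_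
  show V (e.symm w) * (∑ k, ∑ l, dz k (dzb l (fun y => B.tm e g κ β y l k)) w).re =
    ‖(jmat (B.cf e) w).det‖ ^ 2 * (V (B.j (B.cf e w, s (B.cf e w))) * lev κ β (B.cf e w))
  rw [P.tm_dd hκ hw, P.j_cf hw, Complex.re_ofReal_mul, lev]
  ring

end Patch

variable (B)

/-- a matrix valued family `M` (a `(1,1)`-form) in the frame of the cover, as a quadratic form -/
def frm (M : Chart n X → Cm n → Matrix (Fin n) (Fin n) ℂ) (β : Cm n)
    (q : (Fin n → ℂ) × ℕ) : ℝ :=
  (∑ p, ∑ r, M (B.ce q) (B.ce q (B.j q)) p r * ((B.J (B.ce q) (B.j q))⁻¹.mulVec β) p *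
    cj (((B.J (B.ce q) (B.j q))⁻¹.mulVec β) r)).re

variable {B} [IsManifold 𝓘(ℂ, Cm n) ω X]

theorem frm_eq {M : Chart n X → Cm n → Matrix (Fin n) (Fin n) ℂ} {q : (Fin n → ℂ) × ℕ}
    (hq : q ∈ S.M) {e : Chart n X} (he : At e (B.j q))
    (hM : M e (e (B.j q)) = (jacM e (B.ce q) (B.j q)).transpose *
      M (B.ce q) (B.ce q (B.j q)) * (jacM e (B.ce q) (B.j q)).map (starRingEnd ℂ)) (β : Cm n) :
    B.frm M β q = (∑ p, ∑ r, M e (e (B.j q)) p r * ((B.J e (B.j q))⁻¹.mulVec β) p *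
      cj (((B.J e (B.j q))⁻¹.mulVec β) r)).re := by
  have h1 := B.J_comp he (B.ce_at q) (B.j_mem hq)
  have h2 := Vale.Agent.P272.K.jacM_det_ne_zero he (B.ce_at q)
  have h3 : (jacM e (B.ce q) (B.j q)).mulVec ((B.J e (B.j q))⁻¹.mulVec β) =
      (B.J (B.ce q) (B.j q))⁻¹.mulVec β := by
    rw [h1, Matrix.mul_inv_rev, Matrix.mulVec_mulVec, ← Matrix.mul_assoc,
      Matrix.mul_nonsing_inv _ (isUnit_iff_ne_zero.2 h2), Matrix.one_mul]
  rw [hM]
  have h4 := quad_conj (M (B.ce q) (B.ce q (B.j q))) (jacM e (B.ce q) (B.j q))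
    ((B.J e (B.j q))⁻¹.mulVec β)
  rw [h3] at h4
  rw [frm]
  exact (congrArg Complex.re h4).symm

theorem lc_eq_inv {z₀ : Cm n} (hs : S.IsSection W s) (hz : z₀ ∈ W)
    (he : At e (B.j (z₀, s z₀))) :
    jmat (fun z => e (B.j (z, s z))) z₀ = (B.J e (B.j (z₀, s z₀)))⁻¹ :=
  (Matrix.inv_eq_right_inv (B.J_mul_lc hs hz he)).symm

/-- the curvature of `-wt φ` -/
theorem frm_neg_wt {φ : Chart n X → Cm n → ℝ} (hφ : IsCanonicalMetric φ)
    {q : (Fin n → ℂ) × ℕ} (hq : q ∈ S.M) (β : Cm n) :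
    B.frm (fun e z => -cHess (φ e) z) β q = S.levi (fun q => - B.wt φ q) β q := by
  obtain ⟨s, W, hs, z, hz, rfl⟩ := Sheets.exists_section' hq
  rw [B.neg_wt_levi hφ hs hz (B.ce_at _), lc_eq_inv hs hz (B.ce_at _)]
  rfl

namespace Patch

variable (P : B.Patch W s e g)
include P

/-- **conversion of the form term** -/
theorem integral_form {M : Chart n X → Cm n → Matrix (Fin n) (Fin n) ℂ}
    (hM : ∀ e e' x, At e x → At e' x → x ∈ B.Xo →
      M e (e x) = (jacM e e' x).transpose * M e' (e' x) * (jacM e e' x).map (starRingEnd ℂ))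
    {κ : Cm n → ℝ} (β : Cm n) :
    ∫ w, (∑ l, ∑ k, B.tm e g κ β w l k * M e w k l).re =
      ∫ z in g.target, κ z * B.frm M β (z, s z) := by
  rw [P.integral_eq]
  have h1 : ∫ w, (∑ l, ∑ k, B.tm e g κ β w l k * M e w k l).re =
      ∫ w in g.source, (∑ l, ∑ k, B.tm e g κ β w l k * M e w k l).re := by
    rw [setIntegral_eq_integral_of_forall_compl_eq_zero]
    intro w hw
    simp [B.tm_neg hw]
  rw [h1]
  refine setIntegral_congr_fun g.open_source.measurableSet fun w hw => ?_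
  have hz := P.cf_mem hw
  have hq : (B.cf e w, s (B.cf e w)) ∈ S.M := P.hs.mem_M (P.tgt hz)
  have hj := P.j_cf hw
  have hat : At e (B.j (B.cf e w, s (B.cf e w))) := by
    rw [hj]; exact B.T_at P.he (P.sub_T hw)
  have hJd := B.J_det hat (B.j_mem hq)
  have hf := frm_eq (M := M) hq hat (hM e _ _ hat (B.ce_at _) (B.j_mem hq)) β
  rw [hj, e.right_inv (P.src hw)] at hf
  rw [hj] at hJd
  show (∑ l, ∑ k, B.tm e g κ β w l k * M e w k l).re =
    ‖(jmat (B.cf e) w).det‖ ^ 2 * (κ (B.cf e w) * B.frm M β (B.cf e w, s (B.cf e w)))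
  rw [hf]
  have hadv : ∀ k, adv (B.cf e) β w k =
      (B.J e (e.symm w)).det * ((B.J e (e.symm w))⁻¹.mulVec β) k := by
    intro k
    rw [adv_eq_cramer, P.jmat_eq hw, Matrix.cramer_eq_adjugate_mulVec, Matrix.inv_def,
      Matrix.smul_mulVec, Pi.smul_apply, smul_eq_mul, Ring.inverse_eq_inv', ← mul_assoc,
      mul_inv_cancel₀ hJd, one_mul]
  have h2 : ∑ l, ∑ k, B.tm e g κ β w l k * M e w k l =
      ((‖(jmat (B.cf e) w).det‖ ^ 2 * κ (B.cf e w) : ℝ) : ℂ) *
        ∑ p, ∑ r, M e w p r * ((B.J e (e.symm w))⁻¹.mulVec β) p *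
          cj (((B.J e (e.symm w))⁻¹.mulVec β) r) := by
    rw [Finset.sum_comm, Finset.mul_sum]
    refine Finset.sum_congr rfl fun k _ => ?_
    rw [Finset.mul_sum]
    refine Finset.sum_congr rfl fun l _ => ?_
    rw [B.tm_pos hw, hadv k, hadv l, P.jmat_eq hw]
    have h3 : (B.J e (e.symm w)).det * cj ((B.J e (e.symm w)).det) =
        ((‖(B.J e (e.symm w)).det‖ ^ 2 : ℝ) : ℂ) := by
      rw [cj, Complex.mul_conj, Complex.normSq_eq_norm_sq]
    have h4 : cj ((B.J e (e.symm w)).det * ((B.J e (e.symm w))⁻¹.mulVec β) l) =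
        cj ((B.J e (e.symm w)).det) * cj (((B.J e (e.symm w))⁻¹.mulVec β) l) := map_mul _ _ _
    rw [h4]
    push_cast at h3 ⊢
    linear_combination ((κ (B.cf e w) : ℂ) * ((B.J e (e.symm w))⁻¹.mulVec β) k *
      cj (((B.J e (e.symm w))⁻¹.mulVec β) l) * M e w k l) * h3
  rw [h2, Complex.re_ofReal_mul]
  ring

end Patch

end Brg

end Vale.Agent.P299.H216
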