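import Vale.Agent.P299.H216.BrgT
import Vale.Agent.P300.H435.L2.Meas
import Vale.Agent.P272.K.INT.Dens

/-!
# P299 / H216: change of variables between the manifold and the étale cover
-/

open scoped Manifold ContDiff Topology
open MeasureTheory Filter Set
open Vale.Agent.P272.K (Cm Chart At jacM jmat cHess IsCanonicalMetric IsForm)
open Vale.Agent.P300.L2

set_option linter.all false

noncomputable section

namespace Vale.Agent.P299.H216

section graph

variable {n N : ℕ} {S : Sheets n N} {W : Set (Fin n → ℂ)} {s : (Fin n → ℂ) → ℕ}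

theorem graph_meas (hs : S.IsSection W s) {A : Set (Fin n → ℂ)} (hA : MeasurableSet A)
    (hAW : A ⊆ W) : MeasurableSet {q : (Fin n → ℂ) × ℕ | q.1 ∈ A ∧ q.2 = s q.1} := by
  have h : {q : (Fin n → ℂ) × ℕ | q.1 ∈ A ∧ q.2 = s q.1} =
      Sheets.smGraph W s ∩ Prod.fst ⁻¹' A := by
    ext q
    exact ⟨fun h => ⟨⟨hAW h.1, h.2⟩, h.1⟩, fun h => ⟨h.2, h.1.2⟩⟩
  rw [h]
  exact (Sheets.smGraph_meas hs).inter (measurable_fst hA)

/-- integrals over the graph of a section -/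
theorem lintegral_graph (hs : S.IsSection W s) {A : Set (Fin n → ℂ)} (hA : MeasurableSet A)
    (hAW : A ⊆ W) {G : (Fin n → ℂ) × ℕ → ENNReal} (hG : Measurable G) :
    ∫⁻ q in {q : (Fin n → ℂ) × ℕ | q.1 ∈ A ∧ q.2 = s q.1}, G q ∂S.μ =
      ∫⁻ z in A, G (z, s z) := by
  have hm := graph_meas hs hA hAW
  rw [← lintegral_indicator hm, Sheets.lintegral_μ (hG.indicator hm)]
  have h1 : ∀ z ∈ S.V, ∑ w ∈ S.fib z,
      {q : (Fin n → ℂ) × ℕ | q.1 ∈ A ∧ q.2 = s q.1}.indicator G (z, w) =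
      A.indicator (fun z => G (z, s z)) z := by
    intro z hz
    by_cases hzA : z ∈ A
    · rw [indicator_of_mem hzA, Finset.sum_eq_single (s z)]
      · exact indicator_of_mem (show (z, s z) ∈ {q : (Fin n → ℂ) × ℕ | q.1 ∈ A ∧ q.2 = s q.1} from
          ⟨hzA, rfl⟩) G
      · intro w _ hw
        exact indicator_of_notMem (fun h => hw h.2) G
      · intro h
        exact absurd (hs.mem z (hAW hzA)) h
    · rw [indicator_of_notMem hzA]
      refine Finset.sum_eq_zero fun w _ => ?_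
      exact indicator_of_notMem (fun h => hzA h.1) G
  rw [setLIntegral_congr_fun S.isOpen.measurableSet h1, lintegral_indicator hA,
    Measure.restrict_restrict hA, inter_eq_left.2 (hAW.trans hs.subset)]

end graph

namespace Brg

variable {n N : ℕ} {S : Sheets n N} {X : Type} [TopologicalSpace X] [ChartedSpace (Cm n) X]
  [Nonempty X] (B : Brg S X)

/-- the part of the domain of the chart `e` which lies over `Xo` -/
def T (e : Chart n X) : Set (Cm n) := {z | z ∈ e.target ∧ e.symm z ∈ B.Xo}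

/-- `θ` in the chart `e` -/
def θe (e : Chart n X) (w : Cm n) : (Fin n → ℂ) × ℕ := B.θ (e.symm w)

/-- the density of the measure of the cover in the chart `e` -/
def den (e : Chart n X) (w : Cm n) : ENNReal := ENNReal.ofReal (‖(B.J e (e.symm w)).det‖ ^ 2)

variable {e : Chart n X}

theorem T_open (e : Chart n X) : IsOpen (B.T e) := e.isOpen_inter_preimage_symm B.isOpen

theorem θe_mem {w : Cm n} (hw : w ∈ B.T e) : B.θe e w ∈ S.M := B.maps _ hw.2

theorem θe_fst (e : Chart n X) (w : Cm n) : (B.θe e w).1 = B.cf e w := rfl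

theorem θe_inj (e : Chart n X) : InjOn (B.θe e) (B.T e) := by
  intro w hw w' hw' h
  have h1 := B.inj hw.2 hw'.2 h
  have h2 := congrArg e h1
  rwa [e.right_inv hw.1, e.right_inv hw'.1] at h2

theorem T_at (he : e ∈ atlas (Cm n) X) {w : Cm n} (hw : w ∈ B.T e) : At e (e.symm w) :=
  At.of_target he hw.1

theorem cf_contAt (he : e ∈ atlas (Cm n) X) {w : Cm n} (hw : w ∈ B.T e) :
    AnalyticAt ℂ (B.cf e) w := by
  have h := B.cf_analyticAt (B.T_at he hw) hw.2
  rwa [e.right_inv hw.1] at h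

/-- the part of the chart domain which is mapped to the graph of a section is open -/
theorem open_piece [IsManifold 𝓘(ℂ, Cm n) ω X] (he : e ∈ atlas (Cm n) X)
    {W : Set (Fin n → ℂ)} {s : (Fin n → ℂ) → ℕ}
    (hs : S.IsSection W s) : IsOpen {w | w ∈ B.T e ∧ B.θe e w ∈ Sheets.smGraph W s} := by
  rw [isOpen_iff_mem_nhds]
  rintro w₀ ⟨hw₀, hg⟩
  obtain ⟨W', s', hs', hev⟩ := B.θ_eventually (B.T_at he hw₀) hw₀.2
  rw [e.right_inv hw₀.1] at hev
  have h0 := hev.self_of_nhds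
  have h1 : s' (B.cf e w₀) = s (B.cf e w₀) := by
    have h2 : (B.θe e w₀).2 = s (B.cf e w₀) := hg.2
    have h3 : (B.θe e w₀).2 = s' (B.cf e w₀) := by
      show (B.θ (e.symm w₀)).2 = _
      rw [h0.2.2.2]
    rw [← h2, h3]
  have hW : B.cf e w₀ ∈ W := hg.1
  have hgerm := hs'.germ hs h0.2.2.1 hW h1
  have hc : Tendsto (B.cf e) (𝓝 w₀) (𝓝 (B.cf e w₀)) := (B.cf_contAt he hw₀).continuousAt
  filter_upwards [hev, hc.eventually hgerm, hc.eventually (hs.isOpen.mem_nhds hW)] with w h2 h3 h4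
  refine ⟨⟨h2.1, h2.2.1⟩, ?_⟩
  show B.θ (e.symm w) ∈ Sheets.smGraph W s
  rw [h2.2.2.2]
  exact ⟨h4, h3⟩

variable [IsManifold 𝓘(ℂ, Cm n) ω X]

/-- change of variables on one graph -/
theorem piece (he : e ∈ atlas (Cm n) X) {W : Set (Fin n → ℂ)} {s : (Fin n → ℂ) → ℕ}
    (hs : S.IsSection W s) {A : Set (Cm n)} (hA : MeasurableSet A) (hAT : A ⊆ B.T e)
    (hAg : ∀ w ∈ A, B.θe e w ∈ Sheets.smGraph W s) :
    MeasurableSet (B.θe e '' A) ∧ ∀ G : (Fin n → ℂ) × ℕ → ENNReal, Measurable G →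
      ∫⁻ w in A, B.den e w * G (B.θe e w) = ∫⁻ q in B.θe e '' A, G q ∂S.μ := by
  have hθ : ∀ w ∈ A, B.θe e w = (B.cf e w, s (B.cf e w)) := fun w hw => by
    have h := (hAg w hw).2
    exact Prod.ext rfl h
  have hinj : InjOn (B.cf e) A := by
    intro w hw w' hw' h
    refine B.θe_inj e (hAT hw) (hAT hw') ?_
    rw [hθ w hw, hθ w' hw', h]
  have hcont : ContinuousOn (B.cf e) A := fun w hw =>
    (B.cf_contAt he (hAT hw)).continuousAt.continuousWithinAt
  have him : MeasurableSet (B.cf e '' A) := hA.image_of_continuousOn_injOn hcont hinj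
  have himW : B.cf e '' A ⊆ W := by
    rintro _ ⟨w, hw, rfl⟩
    exact (hAg w hw).1
  have hset : B.θe e '' A = {q : (Fin n → ℂ) × ℕ | q.1 ∈ B.cf e '' A ∧ q.2 = s q.1} := by
    ext q
    constructor
    · rintro ⟨w, hw, rfl⟩
      rw [hθ w hw]
      exact ⟨⟨w, hw, rfl⟩, rfl⟩
    · rintro ⟨⟨w, hw, h1⟩, h2⟩
      refine ⟨w, hw, ?_⟩
      rw [hθ w hw]
      refine Prod.ext h1 ?_
      show s (B.cf e w) = q.2
      rw [h2, h1]
  refine ⟨by rw [hset]; exact graph_meas hs him himW, fun G hG => ?_⟩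
  rw [hset, lintegral_graph hs him himW hG]
  have hd : ∀ w ∈ A, HasFDerivWithinAt (B.cf e) (fderiv ℝ (B.cf e) w) A w := fun w hw =>
    ((B.cf_contAt he (hAT hw)).differentiableAt.restrictScalars ℝ).hasFDerivAt.hasFDerivWithinAt
  rw [lintegral_image_eq_lintegral_abs_det_fderiv_mul volume hA hd hinj
    (fun z => G (z, s z))]
  refine setLIntegral_congr_fun hA fun w hw => ?_
  have h1 : (fderiv ℝ (B.cf e) w).det = ‖(B.J e (e.symm w)).det‖ ^ 2 := by
    have := Vale.Agent.P272.K.INT.det_fderiv_real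
      (B.cf_contAt he (hAT hw)).differentiableAt
    rw [this, J, e.right_inv (hAT hw).1]
    rfl
  show B.den e w * G (B.θe e w) = ENNReal.ofReal |(fderiv ℝ (B.cf e) w).det| *
    G (B.cf e w, s (B.cf e w))
  rw [h1, abs_of_nonneg (by positivity), hθ w hw]
  rfl

/-- a countable cover of the total space by graphs, indexed by `ℕ` -/
theorem exists_graphs (S : Sheets n N) (hM : S.M.Nonempty) :
    ∃ (W : ℕ → Set (Fin n → ℂ)) (s : ℕ → (Fin n → ℂ) → ℕ), (∀ k, S.IsSection (W k) (s k)) ∧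
      ∀ q ∈ S.M, ∃ k, q ∈ Sheets.smGraph (W k) (s k) := by
  obtain ⟨ι, hι, W, s, h1, h2⟩ := Sheets.sm_graphs S
  have hne : Nonempty ι := by
    obtain ⟨q, hq⟩ := hM
    rw [← h2] at hq
    obtain ⟨k, _⟩ := mem_iUnion.1 hq
    exact ⟨k⟩
  obtain ⟨f, hf⟩ := exists_surjective_nat ι
  refine ⟨fun k => W (f k), fun k => s (f k), fun k => h1 _, fun q hq => ?_⟩
  rw [← h2] at hq
  obtain ⟨k, hk⟩ := mem_iUnion.1 hq
  obtain ⟨l, rfl⟩ := hf k
  exact ⟨l, hk⟩

/-- decomposition of a measurable subset of the chart domain -/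
theorem exists_pieces (he : e ∈ atlas (Cm n) X) {A : Set (Cm n)} (hA : MeasurableSet A)
    (hAT : A ⊆ B.T e) (hne : A.Nonempty) : ∃ (A' : ℕ → Set (Cm n)) (W : ℕ → Set (Fin n → ℂ))
      (s : ℕ → (Fin n → ℂ) → ℕ), (∀ k, S.IsSection (W k) (s k)) ∧ (∀ k, MeasurableSet (A' k)) ∧
      (⋃ k, A' k) = A ∧ Pairwise (fun i j => Disjoint (A' i) (A' j)) ∧
      ∀ k, ∀ w ∈ A' k, B.θe e w ∈ Sheets.smGraph (W k) (s k) := by
  obtain ⟨w₀, hw₀⟩ := hne
  have hM : S.M.Nonempty := ⟨_, B.θe_mem (hAT hw₀)⟩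
  obtain ⟨W, s, h1, h2⟩ := exists_graphs S hM
  set O : ℕ → Set (Cm n) := fun k => {w | w ∈ B.T e ∧ B.θe e w ∈ Sheets.smGraph (W k) (s k)}
    with hO
  have hOo : ∀ k, IsOpen (O k) := fun k => B.open_piece he (h1 k)
  refine ⟨fun k => (A ∩ O k) \ ⋃ l ∈ Finset.range k, O l, W, s, h1, fun k => ?_, ?_, ?_, ?_⟩
  · refine (hA.inter (hOo k).measurableSet).diff ?_
    exact MeasurableSet.biUnion (Finset.range k).countable_toSet fun l _ => (hOo l).measurableSet
  · ext w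
    constructor
    · intro hw
      obtain ⟨k, hk⟩ := mem_iUnion.1 hw
      exact hk.1.1
    · intro hw
      have hex := h2 _ (B.θe_mem (hAT hw))
      classical
      refine mem_iUnion.2 ⟨Nat.find hex, ⟨hw, hAT hw, Nat.find_spec hex⟩, ?_⟩
      intro h
      obtain ⟨l, hl, hl2⟩ := mem_iUnion₂.1 h
      exact Nat.find_min hex (Finset.mem_range.1 hl) hl2.2
  · intro i j hij
    wlog hlt : i < j generalizing i j
    · exact (this hij.symm (lt_of_le_of_ne (not_lt.1 hlt) hij.symm)).symm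
    rw [Set.disjoint_left]
    intro w hw hw'
    exact hw'.2 (mem_iUnion₂.2 ⟨i, Finset.mem_range.2 hlt, hw.1.2⟩)
  · intro k w hw
    exact hw.1.2.2

/-- **change of variables**, measurable functions -/
theorem cov (he : e ∈ atlas (Cm n) X) {A : Set (Cm n)} (hA : MeasurableSet A)
    (hAT : A ⊆ B.T e) :
    MeasurableSet (B.θe e '' A) ∧ ∀ G : (Fin n → ℂ) × ℕ → ENNReal, Measurable G →
      ∫⁻ w in A, B.den e w * G (B.θe e w) = ∫⁻ q in B.θe e '' A, G q ∂S.μ := by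
  rcases A.eq_empty_or_nonempty with rfl | hne
  · simp
  obtain ⟨A', W, s, h1, h2, h3, h4, h5⟩ := B.exists_pieces he hA hAT hne
  have hsub : ∀ k, A' k ⊆ B.T e := fun k w hw => hAT (h3 ▸ mem_iUnion.2 ⟨k, hw⟩)
  have hp := fun k => B.piece he (h1 k) (h2 k) (hsub k) (h5 k)
  have him : B.θe e '' A = ⋃ k, B.θe e '' A' k := by
    rw [← h3, image_iUnion]
  have hdis : Pairwise (fun i j => Disjoint (B.θe e '' A' i) (B.θe e '' A' j)) := by
    intro i j hij
    rw [Set.disjoint_left]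
    rintro _ ⟨w, hw, rfl⟩ ⟨w', hw', h⟩
    have := B.θe_inj e (hsub j hw') (hsub i hw) h
    rw [this] at hw'
    exact Set.disjoint_left.1 (h4 hij) hw hw'
  refine ⟨by rw [him]; exact MeasurableSet.iUnion fun k => (hp k).1, fun G hG => ?_⟩
  rw [him, lintegral_iUnion (fun k => (hp k).1) hdis]
  have h6 : ∫⁻ w in A, B.den e w * G (B.θe e w) = ∫⁻ w in ⋃ k, A' k,
      B.den e w * G (B.θe e w) := by rw [h3]
  rw [h6, lintegral_iUnion h2 h4]
  exact tsum_congr fun k => (hp k).2 G hG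

/-- preimages of measurable sets -/
theorem meas_preimage (he : e ∈ atlas (Cm n) X) {A : Set (Cm n)} (hA : MeasurableSet A)
    (hAT : A ⊆ B.T e) {Q : Set ((Fin n → ℂ) × ℕ)} (hQ : MeasurableSet Q) :
    MeasurableSet (A ∩ B.θe e ⁻¹' Q) := by
  rcases A.eq_empty_or_nonempty with rfl | hne
  · simp
  obtain ⟨A', W, s, h1, h2, h3, h4, h5⟩ := B.exists_pieces he hA hAT hne
  have hsub : ∀ k, A' k ⊆ B.T e := fun k w hw => hAT (h3 ▸ mem_iUnion.2 ⟨k, hw⟩)
  have h6 : A ∩ B.θe e ⁻¹' Q = ⋃ k, (A' k ∩ B.θe e ⁻¹' Q) := by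
    rw [← iUnion_inter, h3]
  rw [h6]
  refine MeasurableSet.iUnion fun k => ?_
  obtain ⟨s', hs', hss⟩ := (h1 k).exists_ext
  have h7 : A' k ∩ B.θe e ⁻¹' Q = A' k ∩ (B.cf e) ⁻¹' {z | (z, s' z) ∈ Q} := by
    ext w
    have h8 : ∀ hw : w ∈ A' k, B.θe e w = (B.cf e w, s' (B.cf e w)) := fun hw => by
      have h9 := h5 k w hw
      refine Prod.ext rfl ?_
      have h10 := hss _ h9.1
      exact h9.2.trans h10.symm
    constructor
    · rintro ⟨hw, hw2⟩
      refine ⟨hw, ?_⟩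
      show (B.cf e w, s' (B.cf e w)) ∈ Q
      rw [← h8 hw]; exact hw2
    · rintro ⟨hw, hw2⟩
      refine ⟨hw, ?_⟩
      show B.θe e w ∈ Q
      rw [h8 hw]; exact hw2
  rw [h7]
  have hc : ContinuousOn (B.cf e) (A' k) := fun w hw =>
    (B.cf_contAt he (hsub k hw)).continuousAt.continuousWithinAt
  have hm : Measurable ((A' k).restrict (B.cf e)) :=
    (continuousOn_iff_continuous_restrict.1 hc).measurable
  have hq : MeasurableSet {z : Cm n | (z, s' z) ∈ Q} :=
    (measurable_id.prodMk hs') hQ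
  have h9 := (MeasurableEmbedding.subtype_coe (h2 k)).measurableSet_image.2 (hm hq)
  convert h9 using 1
  ext w
  constructor
  · rintro ⟨hw, hw2⟩
    exact ⟨⟨w, hw⟩, hw2, rfl⟩
  · rintro ⟨⟨w', hw'⟩, h, rfl⟩
    exact ⟨hw', h⟩

theorem den_ne_zero (he : e ∈ atlas (Cm n) X) {w : Cm n} (hw : w ∈ B.T e) : B.den e w ≠ 0 := by
  have h := B.J_det (B.T_at he hw) hw.2
  rw [den, Ne, ENNReal.ofReal_eq_zero, not_le]
  positivity

theorem den_contOn (he : e ∈ atlas (Cm n) X) : ContinuousOn (B.den e) (B.T e) := by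
  intro w hw
  have h := (B.J_det_analyticAt (B.T_at he hw) hw.2).continuousAt
  rw [e.right_inv hw.1] at h
  refine ContinuousAt.continuousWithinAt ?_
  exact ENNReal.continuous_ofReal.continuousAt.comp (h.norm.pow 2)

theorem den_aemeas (he : e ∈ atlas (Cm n) X) {A : Set (Cm n)} (hA : MeasurableSet A)
    (hAT : A ⊆ B.T e) : AEMeasurable (B.den e) (volume.restrict A) :=
  ((B.den_contOn he).mono hAT).aemeasurable hA

/-- null sets -/
theorem null_preimage (he : e ∈ atlas (Cm n) X) {Q : Set ((Fin n → ℂ) × ℕ)} (hQ : S.μ Q = 0) :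
    volume (B.T e ∩ B.θe e ⁻¹' Q) = 0 := by
  set Q' := toMeasurable S.μ Q with hQ'
  have h0 : S.μ Q' = 0 := by rw [hQ', measure_toMeasurable, hQ]
  have hm := measurableSet_toMeasurable S.μ Q
  refine measure_mono_null (t := B.T e ∩ B.θe e ⁻¹' Q')
    (inter_subset_inter_right _ (preimage_mono (subset_toMeasurable _ _))) ?_
  set A := B.T e ∩ B.θe e ⁻¹' Q' with hA
  have hAm : MeasurableSet A :=
    B.meas_preimage he (B.T_open e).measurableSet Subset.rfl hm
  have hAT : A ⊆ B.T e := inter_subset_left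
  have h1 := (B.cov he hAm hAT).2 (fun _ => 1) measurable_const
  have h2 : ∫⁻ q in B.θe e '' A, (1 : ENNReal) ∂S.μ = 0 := by
    rw [setLIntegral_one]
    refine measure_mono_null ?_ h0
    rintro _ ⟨w, hw, rfl⟩
    exact hw.2
  simp only [mul_one] at h1
  rw [h2, lintegral_eq_zero_iff' (B.den_aemeas he hAm hAT)] at h1
  have h3 : ∀ᵐ w ∂volume.restrict A, False := by
    filter_upwards [h1, ae_restrict_mem hAm] with w hw hwA
    exact B.den_ne_zero he (hAT hwA) hw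
  rwa [ae_iff, show {a : Cm n | ¬ False} = univ by ext; simp, Measure.restrict_apply_univ] at h3

/-- **change of variables** -/
theorem cov' (he : e ∈ atlas (Cm n) X) {A : Set (Cm n)} (hA : MeasurableSet A)
    (hAT : A ⊆ B.T e) {G : (Fin n → ℂ) × ℕ → ENNReal} (hG : AEMeasurable G S.μ) :
    ∫⁻ w in A, B.den e w * G (B.θe e w) = ∫⁻ q in B.θe e '' A, G q ∂S.μ := by
  have h1 : ∫⁻ q in B.θe e '' A, G q ∂S.μ = ∫⁻ q in B.θe e '' A, hG.mk G q ∂S.μ :=
    lintegral_congr_ae (ae_restrict_of_ae hG.ae_eq_mk)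
  rw [h1, ← (B.cov he hA hAT).2 _ hG.measurable_mk]
  refine lintegral_congr_ae ?_
  have h2 := B.null_preimage he (Q := {q | ¬ G q = hG.mk G q}) hG.ae_eq_mk
  have h3 : ∀ᵐ w ∂(volume : Measure (Cm n)), w ∉ B.T e ∩ B.θe e ⁻¹' {q | ¬ G q = hG.mk G q} :=
    measure_eq_zero_iff_ae_notMem.1 h2
  filter_upwards [ae_restrict_of_ae h3, ae_restrict_mem hA] with w hw hwA
  by_contra hne
  refine hw ⟨hAT hwA, ?_⟩
  intro h
  exact hne (by rw [h])

/-- integrals in a chart are bounded by integrals over the cover -/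
theorem lintegral_chart_le (he : e ∈ atlas (Cm n) X) {A : Set (Cm n)} (hA : MeasurableSet A)
    (hAT : A ⊆ B.T e) {G : (Fin n → ℂ) × ℕ → ENNReal} (hG : AEMeasurable G S.μ) :
    ∫⁻ w in A, B.den e w * G (B.θe e w) ≤ ∫⁻ q, G q ∂S.μ := by
  rw [B.cov' he hA hAT hG]
  exact setLIntegral_le_lintegral _ _

/-- **local-to-global finiteness** -/
theorem lintegral_lt_top [CompactSpace X] {G : (Fin n → ℂ) × ℕ → ENNReal}
    (hG : AEMeasurable G S.μ)
    (hloc : ∀ x : X, ∃ e : Chart n X, At e x ∧ ∃ O ∈ 𝓝 (e x),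
      ∀ A, IsOpen A → A ⊆ O → ∫⁻ w in A ∩ B.T e, B.den e w * G (B.θe e w) < ⊤) :
    ∫⁻ q, G q ∂S.μ < ⊤ := by
  have h1 : ∀ x : X, ∃ (e : Chart n X) (A : Set (Cm n)), e ∈ atlas (Cm n) X ∧ IsOpen A ∧
      e.source ∩ e ⁻¹' A ∈ 𝓝 x ∧ ∫⁻ w in A ∩ B.T e, B.den e w * G (B.θe e w) < ⊤ := by
    intro x
    obtain ⟨e, hex, O, hO, h⟩ := hloc x
    refine ⟨e, interior O, hex.1, isOpen_interior, ?_, h _ isOpen_interior interior_subset⟩
    refine (e.isOpen_inter_preimage isOpen_interior).mem_nhds ⟨hex.2, ?_⟩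
    exact mem_interior_iff_mem_nhds.2 hO
  choose e A he hA hx hfin using h1
  obtain ⟨t, ht⟩ := CompactSpace.elim_nhds_subcover _ hx
  have h2 : ∫⁻ q, G q ∂S.μ ≤ ∑ x ∈ t, ∫⁻ w in A x ∩ B.T (e x),
      B.den (e x) w * G (B.θe (e x) w) := by
    have h3 : ∀ x, ∫⁻ w in A x ∩ B.T (e x), B.den (e x) w * G (B.θe (e x) w) =
        ∫⁻ q in B.θe (e x) '' (A x ∩ B.T (e x)), G q ∂S.μ := fun x =>
      B.cov' (he x) ((hA x).inter (B.T_open (e x))).measurableSet inter_subset_right hG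
    simp only [h3]
    have h4 : S.μ.restrict (⋃ x ∈ t, B.θe (e x) '' (A x ∩ B.T (e x))) = S.μ := by
      refine Measure.restrict_eq_self_of_ae_mem ?_
      filter_upwards [Sheets.ae_mem_M] with q hq
      have hj := B.j_mem hq
      have h5 : B.j q ∈ ⋃ x ∈ t, (e x).source ∩ (e x) ⁻¹' (A x) := ht ▸ mem_univ _
      obtain ⟨x, hxt, hxs, hxA⟩ := mem_iUnion₂.1 h5
      refine mem_iUnion₂.2 ⟨x, hxt, e x (B.j q), ⟨hxA, (e x).map_source hxs, ?_⟩, ?_⟩
      · show (e x).symm (e x (B.j q)) ∈ B.Xo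
        rw [(e x).left_inv hxs]; exact hj
      · show B.θ ((e x).symm (e x (B.j q))) = q
        rw [(e x).left_inv hxs]; exact B.θ_j hq
    calc ∫⁻ q, G q ∂S.μ = ∫⁻ q in ⋃ x ∈ t, B.θe (e x) '' (A x ∩ B.T (e x)), G q ∂S.μ := by
          rw [h4]
      _ ≤ _ := by
          have h6 : (⋃ x ∈ t, B.θe (e x) '' (A x ∩ B.T (e x))) =
              ⋃ x : t, B.θe (e x) '' (A x ∩ B.T (e x)) := by
            ext q; simp
          rw [h6]
          refine (lintegral_iUnion_le _ _).trans ?_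
          have h5 := Finset.tsum_subtype t (fun x =>
            ∫⁻ q in B.θe (e x) '' (A x ∩ B.T (e x)), G q ∂S.μ)
          exact h5.le
  exact h2.trans_lt (ENNReal.sum_lt_top.2 fun x _ => hfin x)

/-- the form used for the extension theorem -/
theorem hcov : ∀ e ∈ atlas (Cm n) X, ∀ A : Set (Cm n), A ⊆ e.target → MeasurableSet A →
    (∀ z ∈ A, e.symm z ∈ B.Xo) → ∀ G : (Fin n → ℂ) × ℕ → ENNReal, AEMeasurable G S.μ →
      ∫⁻ z in A, ENNReal.ofReal (‖(B.J e (e.symm z)).det‖ ^ 2) * G (B.θ (e.symm z)) ≤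
        ∫⁻ q, G q ∂S.μ := fun e he A hAt hA hAo G hG =>
  B.lintegral_chart_le he hA (fun z hz => ⟨hAt hz, hAo z hz⟩) hG

/-- in a chart, `exp (wt φ)` times the Jacobian density is `exp φ` -/
theorem den_mul_exp_wt {φ : Chart n X → Cm n → ℝ} (hφ : IsCanonicalMetric φ)
    (he : e ∈ atlas (Cm n) X) {w : Cm n} (hw : w ∈ B.T e) :
    B.den e w * ENNReal.ofReal (Real.exp (B.wt φ (B.θe e w))) =
      ENNReal.ofReal (Real.exp (φ e w)) := by
  have hx := hw.2
  have hAt := B.T_at he hw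
  have hM := B.maps _ hx
  have hj := B.j_θ hx
  have h1 := B.wt_eq hφ.change hM (e := e) (by rw [hj]; exact hAt)
  rw [hj, e.right_inv hw.1] at h1
  have h2 := B.J_det hAt hx
  have h3 : 0 < ‖(B.J e (e.symm w)).det‖ ^ 2 := by positivity
  show ENNReal.ofReal (‖(B.J e (e.symm w)).det‖ ^ 2) *
    ENNReal.ofReal (Real.exp (B.wt φ (B.θ (e.symm w)))) = _
  rw [h1, ← ENNReal.ofReal_mul h3.le, Real.exp_sub, Real.exp_log h3]
  congr 1
  field_simp

theorem aemeas_of_CD {u : (Fin n → ℂ) × ℕ → ℝ} (hu : S.CD 0 (fun q => (u q : ℂ))) :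
    AEMeasurable u S.μ := by
  have h := (Sheets.aestronglyMeasurable_of_CD hu).aemeasurable
  exact Complex.measurable_re.comp_aemeasurable h

/-- **finite mass** of the measure `exp φ` of weights of the canonical bundle -/
theorem mass_lt_top [CompactSpace X] {φ : Chart n X → Cm n → ℝ} (hφ : IsCanonicalMetric φ) :
    ∫⁻ q, ENNReal.ofReal (Real.exp (B.wt φ q)) ∂S.μ < ⊤ := by
  have hm : AEMeasurable (fun q => ENNReal.ofReal (Real.exp (B.wt φ q))) S.μ :=
    (Real.measurable_exp.comp_aemeasurable (aemeas_of_CD (B.wt_CD hφ 0))).ennreal_ofReal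
  refine B.lintegral_lt_top hm fun x => ?_
  set e : Chart n X := chartAt (Cm n) x with he
  have hx : At e x := ⟨chart_mem_atlas (Cm n) x, mem_chart_source (Cm n) x⟩
  have hc : ContinuousAt (φ e) (e x) := (hφ.smooth e x hx).continuousAt
  have h1 : ∀ᶠ w in 𝓝 (e x), φ e w < φ e (e x) + 1 :=
    hc.eventually (gt_mem_nhds (lt_add_one _))
  obtain ⟨r, hr, hb⟩ := Metric.mem_nhds_iff.1 h1
  refine ⟨e, hx, Metric.ball (e x) r, Metric.ball_mem_nhds _ hr, fun A hA hAr => ?_⟩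
  have hAm : MeasurableSet (A ∩ B.T e) := (hA.inter (B.T_open e)).measurableSet
  calc ∫⁻ w in A ∩ B.T e, B.den e w *
        ENNReal.ofReal (Real.exp (B.wt φ (B.θe e w)))
      ≤ ∫⁻ w in A ∩ B.T e, ENNReal.ofReal (Real.exp (φ e (e x) + 1)) := by
        refine setLIntegral_mono' hAm fun w hw => ?_
        rw [B.den_mul_exp_wt hφ hx.1 hw.2]
        exact ENNReal.ofReal_le_ofReal (Real.exp_le_exp.2 (hb (hAr hw.1)).le)
    _ = ENNReal.ofReal (Real.exp (φ e (e x) + 1)) * volume (A ∩ B.T e) := by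
        rw [setLIntegral_const]
    _ < ⊤ := by
        refine ENNReal.mul_lt_top ENNReal.ofReal_lt_top ?_
        exact (measure_mono (inter_subset_left.trans hAr)).trans_lt measure_ball_lt_top

end Brg

end Vale.Agent.P299.H216
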