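import Vale.Agent.P299.H216.BrgM
import Vale.Agent.P272.K.INT.Piola

/-!
# P299 / H216: transformation of test forms (Piola)

For a holomorphic map `f` with Jacobian matrix `J` and a constant vector `β` the vector field
`a = adj(J) β` is divergence free, and the operator `∑ ∂_k ∂̄_l (κ(f) a_k ā_l)` is `|det J|²` times the
Levi form of `κ` in the direction `β`.
-/

open scoped Manifold ContDiff Topology
open MeasureTheory Filter Set
open Vale.Agent.P272.K (Cm Chart At jacM jmat cHess IsCanonicalMetric IsForm dz dzb cj)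

set_option linter.all false

noncomputable section

namespace Vale.Agent.P299.H216

variable {n : ℕ} {f : Cm n → Cm n} {β : Cm n} {w : Cm n}

/-- the vector field `adj(J) β` -/
def adv (f : Cm n → Cm n) (β : Cm n) (w : Cm n) (k : Fin n) : ℂ :=
  ((jmat f w).transpose.updateRow k β).det

theorem adv_eq_cramer (f : Cm n → Cm n) (β : Cm n) (w : Cm n) :
    adv f β w = Matrix.cramer (jmat f w) β := by
  funext k
  rw [Matrix.cramer_apply, adv, ← Matrix.det_transpose, Matrix.updateRow_transpose,
    Matrix.transpose_transpose]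

theorem jmat_mul_adv (f : Cm n → Cm n) (β : Cm n) (w : Cm n) (p : Fin n) :
    ∑ r, jmat f w p r * adv f β w r = (jmat f w).det * β p := by
  have h := Matrix.mulVec_cramer (jmat f w) β
  have h2 := congrFun h p
  rw [← adv_eq_cramer] at h2
  simpa [Matrix.mulVec, dotProduct] using h2

theorem jmat_smooth (hf : ContDiffAt ℂ ω f w) (p i : Fin n) :
    ContDiffAt ℝ ∞ (fun y => jmat f y p i) w :=
  ((Vale.Agent.P272.K.jmat_holo hf p i).restrict_scalars ℝ).of_le (by exact le_top)

/-- `adv` is holomorphic -/
theorem adv_holo (hf : ContDiffAt ℂ ω f w) (k : Fin n) :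
    ContDiffAt ℂ ω (fun y => adv f β y k) w := by
  have h : (fun y => adv f β y k) = fun y => ∑ σ : Equiv.Perm (Fin n),
      (Equiv.Perm.sign σ : ℂ) * ∏ i, ((jmat f y).transpose.updateRow k β) (σ i) i := by
    funext y; rw [adv, Matrix.det_apply']
  rw [h]
  refine ContDiffAt.sum fun σ _ => contDiffAt_const.mul (contDiffAt_prod fun i _ => ?_)
  by_cases hk : σ i = k
  · have h2 : (fun y => ((jmat f y).transpose.updateRow k β) (σ i) i) = fun _ => β i := by
      funext y; rw [hk, Matrix.updateRow_self]
    rw [h2]; exact contDiffAt_const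
  · have h2 : (fun y => ((jmat f y).transpose.updateRow k β) (σ i) i) =
        fun y => jmat f y i (σ i) := by
      funext y; rw [Matrix.updateRow_ne hk]; rfl
    rw [h2]; exact Vale.Agent.P272.K.jmat_holo hf _ _

theorem adv_diff (hf : ContDiffAt ℂ ω f w) (k : Fin n) :
    DifferentiableAt ℂ (fun y => adv f β y k) w := (adv_holo hf k).differentiableAt (by simp)

/-- derivatives of the Jacobian matrix are symmetric -/
theorem jmat_closed (hf : ContDiffAt ℂ ω f w) (i k l : Fin n) :
    dz i (fun y => (jmat f y).transpose k l) w = dz k (fun y => (jmat f y).transpose i l) w := by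
  have h1 : ContDiffAt ℝ 2 (fun y => f y l) w :=
    ((contDiffAt_pi.1 hf l).restrict_scalars ℝ).of_le (by exact le_top)
  exact Vale.Agent.P272.K.dz_dz_comm h1

/-- **`adj(J) β` is divergence free** -/
theorem div_adv (hf : ContDiffAt ℂ ω f w) {G : Cm n → ℂ} (hG : DifferentiableAt ℝ G w) :
    ∑ r, dz r (fun y => G y * adv f β y r) w = ∑ r, dz r G w * adv f β w r := by
  have h := Vale.Agent.P272.K.INT.piola (M := fun y => (jmat f y).transpose)
    (a := fun y l => G y * β l) (z := w)
    (fun i j => ((Vale.Agent.P272.K.jmat_holo hf j i).differentiableAt (by simp)).restrictScalars ℝ)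
    (fun l => hG.mul_const _) (fun i k l => jmat_closed hf i k l)
  have h1 : ∀ r, (fun y => (((jmat f y).transpose).updateRow r (fun l => G y * β l)).det) =
      fun y => G y * adv f β y r := by
    intro r
    funext y
    have : (fun l => G y * β l) = G y • β := by ext l; simp
    rw [this, Matrix.det_updateRow_smul, adv]
  have h2 : ∀ r, (((jmat f w).transpose).updateRow r (fun l => dz r (fun y => G y * β l) w)).det =
      dz r G w * adv f β w r := by
    intro r
    have h3 : (fun l => dz r (fun y => G y * β l) w) = dz r G w • β := by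
      ext l
      rw [Vale.Agent.P272.K.dz_mul hG (differentiableAt_const _), Vale.Agent.P272.K.dz_const]
      simp
    rw [h3, Matrix.det_updateRow_smul, adv]
  simp only [h1, h2] at h
  exact h

/-- divergence of `F(f) adj(J) β` -/
theorem div_comp (hf : ContDiffAt ℂ ω f w) {F : Cm n → ℂ} (hF : DifferentiableAt ℝ F (f w)) :
    ∑ r, dz r (fun y => F (f y) * adv f β y r) w =
      (jmat f w).det * ∑ p, β p * dz p F (f w) := by
  have hfd : DifferentiableAt ℂ f w := hf.differentiableAt (by simp)
  have hc : DifferentiableAt ℝ (fun y => F (f y)) w :=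
    DifferentiableAt.comp (g := F) w hF (hfd.restrictScalars ℝ)
  rw [div_adv hf hc]
  calc ∑ r, dz r (fun y => F (f y)) w * adv f β w r
      = ∑ r, ∑ p, dz p F (f w) * jmat f w p r * adv f β w r := by
        refine Finset.sum_congr rfl fun r _ => ?_
        rw [Vale.Agent.P272.K.dz_comp_holo hF hfd, Finset.sum_mul]
    _ = ∑ p, ∑ r, dz p F (f w) * jmat f w p r * adv f β w r := Finset.sum_comm
    _ = ∑ p, dz p F (f w) * ((jmat f w).det * β p) := by
        refine Finset.sum_congr rfl fun p _ => ?_
        rw [← jmat_mul_adv, Finset.mul_sum]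
        exact Finset.sum_congr rfl fun r _ => by ring
    _ = _ := by
        rw [Finset.mul_sum]
        exact Finset.sum_congr rfl fun p _ => by ring

/-- **transformation of the test form** -/
theorem dd_test (hf : ContDiffAt ℂ ω f w) {κ : Cm n → ℝ}
    (hκ : ContDiffAt ℝ 2 κ (f w)) :
    ∑ k, ∑ l, dz k (fun y => dzb l (fun y => (κ (f y) : ℂ) * adv f β y k * cj (adv f β y l)) y) w =
      ((‖(jmat f w).det‖ ^ 2 : ℝ) : ℂ) * ∑ p, ∑ q, cHess κ (f w) p q * β p * cj (β q) := by
  set κc : Cm n → ℂ := fun z => (κ z : ℂ) with hκc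
  have hκ' : ContDiffAt ℝ 2 κc (f w) := Vale.Agent.P272.K.ofReal_contDiffAt hκ
  -- the inner sum, near `w`
  have hfev : ∀ᶠ y in 𝓝 w, ContDiffAt ℂ ω f y := hf.eventually (by simp)
  have hfc : Tendsto f (𝓝 w) (𝓝 (f w)) := hf.continuousAt
  have hκev : ∀ᶠ y in 𝓝 w, ContDiffAt ℝ 2 κ (f y) := hfc.eventually (hκ.eventually (by simp))
  set G : Cm n → ℂ := fun z => ∑ p, cj (β p) * dzb p κc z with hG
  have hinner : ∀ k, (fun y => ∑ l, dzb l
      (fun y => (κ (f y) : ℂ) * adv f β y k * cj (adv f β y l)) y) =ᶠ[𝓝 w]
      fun y => cj ((jmat f y).det) * (G (f y) * adv f β y k) := by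
    intro k
    filter_upwards [hfev, hκev] with y hy hκy
    have hfd : DifferentiableAt ℂ f y := hy.differentiableAt (by simp)
    have hκd : DifferentiableAt ℝ κc (f y) :=
      (Vale.Agent.P272.K.ofReal_contDiffAt hκy).differentiableAt (by simp)
    have hκf : DifferentiableAt ℝ (fun y => κc (f y)) y :=
      DifferentiableAt.comp (g := κc) y hκd (hfd.restrictScalars ℝ)
    have ha : ∀ l, DifferentiableAt ℝ (fun y => adv f β y l) y := fun l =>
      (adv_diff hy l).restrictScalars ℝ
    have h1 : ∀ l, dzb l (fun y => (κ (f y) : ℂ) * adv f β y k * cj (adv f β y l)) y =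
        adv f β y k * cj (dz l (fun y => κc (f y) * adv f β y l) y) := by
      intro l
      have h2 : (fun y => (κ (f y) : ℂ) * adv f β y k * cj (adv f β y l)) =
          fun y => adv f β y k * cj (κc (f y) * adv f β y l) := by
        funext y
        simp only [cj, map_mul, hκc, Complex.conj_ofReal]
        ring
      have hp : DifferentiableAt ℝ (fun y => κc (f y) * adv f β y l) y := hκf.mul (ha l)
      have hpc : DifferentiableAt ℝ (fun y => cj (κc (f y) * adv f β y l)) y :=
        (Complex.conjCLE.differentiableAt (x := κc (f y) * adv f β y l)).comp y hp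
      rw [h2, Vale.Agent.P272.K.dzb_mul (ha k) hpc, Vale.Agent.P272.K.dzb_of_holo (adv_diff hy k),
        Vale.Agent.P272.K.dzb_cj hp]
      ring
    simp only [h1]
    rw [← Finset.mul_sum, ← map_sum, div_comp hy hκd, map_mul, map_sum]
    have h3 : ∑ p, cj (β p * dz p κc (f y)) = G (f y) := by
      rw [hG]
      refine Finset.sum_congr rfl fun p _ => ?_
      show cj (β p * dz p κc (f y)) = cj (β p) * dzb p κc (f y)
      have h4 : cj (dz p κc (f y)) = dzb p κc (f y) := by
        rw [← Vale.Agent.P272.K.dzb_cj hκd]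
        congr 1
        funext z
        simp [cj, hκc]
      rw [← h4]
      exact map_mul _ _ _
    rw [h3]
    ring
  have hfd : DifferentiableAt ℂ f w := hf.differentiableAt (by simp)
  have hGd : DifferentiableAt ℝ G (f w) := by
    refine DifferentiableAt.fun_sum fun p _ => ?_
    exact (differentiableAt_const _).mul (Vale.Agent.P272.K.differentiableAt_dzb hκ')
  have hGf : DifferentiableAt ℝ (fun y => G (f y)) w :=
    DifferentiableAt.comp (g := G) w hGd (hfd.restrictScalars ℝ)
  have hdet : DifferentiableAt ℂ (fun y => (jmat f y).det) w := by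
    have : (fun y => (jmat f y).det) = fun y => ∑ σ : Equiv.Perm (Fin n),
        (Equiv.Perm.sign σ : ℂ) * ∏ i, (jmat f y) (σ i) i := by
      funext y; rw [Matrix.det_apply']
    rw [this]
    exact (ContDiffAt.sum fun σ _ => contDiffAt_const.mul
      (contDiffAt_prod fun i _ => Vale.Agent.P272.K.jmat_holo hf _ _)).differentiableAt
      (n := ω) (by simp)
  have hcdet : DifferentiableAt ℝ (fun y => cj ((jmat f y).det)) w := by
    have := (Complex.conjCLE.differentiableAt (x := (jmat f w).det)).comp w
      (hdet.restrictScalars ℝ)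
    exact this
  have ha : ∀ l, DifferentiableAt ℝ (fun y => adv f β y l) w := fun l =>
      (adv_diff hf l).restrictScalars ℝ
  have hswap : ∀ k, ∑ l, dz k (fun y => dzb l
      (fun y => (κ (f y) : ℂ) * adv f β y k * cj (adv f β y l)) y) w =
      dz k (fun y => ∑ l, dzb l
        (fun y => (κ (f y) : ℂ) * adv f β y k * cj (adv f β y l)) y) w := by
    intro k
    rw [Vale.Agent.P272.K.dz_sum]
    intro l _
    have hsm : ContDiffAt ℝ 2 (fun y => (κ (f y) : ℂ) * adv f β y k * cj (adv f β y l)) w := by
      have e1 : ContDiffAt ℝ 2 (fun y => κc (f y)) w :=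
        ContDiffAt.comp w (g := κc) hκ' ((hf.restrict_scalars ℝ).of_le (by exact le_top))
      have e2 : ∀ k, ContDiffAt ℝ 2 (fun y => adv f β y k) w := fun k =>
        ((adv_holo hf k).restrict_scalars ℝ).of_le (by exact le_top)
      have e3 : ContDiffAt ℝ 2 (fun y => cj (adv f β y l)) w :=
        Complex.conjCLE.contDiff.contDiffAt.comp w (e2 l)
      exact (e1.mul (e2 k)).mul e3
    exact Vale.Agent.P272.K.differentiableAt_dzb hsm
  simp only [hswap]
  have h5 : ∀ k, dz k (fun y => ∑ l, dzb l
      (fun y => (κ (f y) : ℂ) * adv f β y k * cj (adv f β y l)) y) w =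
      cj ((jmat f w).det) * dz k (fun y => G (f y) * adv f β y k) w := by
    intro k
    have hp : DifferentiableAt ℝ (fun y => G (f y) * adv f β y k) w := hGf.mul (ha k)
    rw [Vale.Agent.P272.K.dz_congr (hinner k), Vale.Agent.P272.K.dz_mul hcdet hp,
      Vale.Agent.P272.K.dz_cj (hdet.restrictScalars ℝ), Vale.Agent.P272.K.dzb_of_holo hdet]
    simp
  simp only [h5]
  rw [← Finset.mul_sum, div_comp hf hGd]
  have h6 : ∀ p, dz p G (f w) = ∑ q, cj (β q) * cHess κ (f w) p q := by
    intro p
    rw [hG, Vale.Agent.P272.K.dz_sum]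
    · refine Finset.sum_congr rfl fun q _ => ?_
      rw [Vale.Agent.P272.K.dz_const_mul _ (Vale.Agent.P272.K.differentiableAt_dzb hκ')]
      rfl
    · intro q _
      exact (differentiableAt_const _).mul (Vale.Agent.P272.K.differentiableAt_dzb hκ')
  simp only [h6]
  have h7 : cj ((jmat f w).det) * (jmat f w).det = ((‖(jmat f w).det‖ ^ 2 : ℝ) : ℂ) := by
    rw [mul_comm, cj, Complex.mul_conj, Complex.normSq_eq_norm_sq]
  rw [← mul_assoc, h7]
  congr 1
  refine Finset.sum_congr rfl fun p _ => ?_
  rw [Finset.mul_sum]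
  exact Finset.sum_congr rfl fun q _ => by ring

end Vale.Agent.P299.H216
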