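import Vale.Agent.P299.H216.Brg

/-!
# P299 / H216: weights on the bridge

`B.wt φ` : the weights `φ` of the canonical bundle in the frame given by the coordinates of the
étale cover.
-/

open scoped Manifold ContDiff ComplexOrder Topology
open MeasureTheory Filter Set
open Vale.Agent.P272.K (Cm Chart At jacM jmat cHess IsCanonicalMetric IsForm)
open Vale.Agent.P300.L2

set_option linter.all false

noncomputable section

namespace Vale.Agent.P299.H216

theorem nat_le_infty (k : ℕ) : (k : WithTop ℕ∞) ≤ ∞ := by exact_mod_cast (le_top : (k : ℕ∞) ≤ ⊤)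

theorem two_le_infty : (2 : WithTop ℕ∞) ≤ ∞ := by
  have h := nat_le_infty 2
  rwa [Nat.cast_ofNat] at h

section levi

variable {n N : ℕ} {S : Sheets n N} {W : Set (Fin n → ℂ)} {s : (Fin n → ℂ) → ℕ} {z₀ : Fin n → ℂ}

/-- the Levi form along a section is the complex Hessian -/
theorem D_Db_eq (hs : S.IsSection W s) (hz : z₀ ∈ W) (Φ : (Fin n → ℂ) × ℕ → ℝ) (j k : Fin n) :
    S.D j (S.Db k (fun q => (Φ q : ℂ))) (z₀, s z₀) =
      cHess (fun z => Φ (z, s z)) z₀ j k := by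
  rw [Sheets.D_apply hs hz]
  have h1 : (fun z => S.Db k (fun q => (Φ q : ℂ)) (z, s z)) =ᶠ[𝓝 z₀]
      fun z => dzb k (fun z => (Φ (z, s z) : ℂ)) z := by
    filter_upwards [hs.isOpen.mem_nhds hz] with z hz'
    exact Sheets.Db_apply hs hz'
  show Vale.Agent.P272.K.dz j (fun z => S.Db k (fun q => (Φ q : ℂ)) (z, s z)) z₀ = _
  rw [Vale.Agent.P272.K.dz_congr h1]
  rfl

theorem levi_eq_cHess (hs : S.IsSection W s) (hz : z₀ ∈ W) (Φ : (Fin n → ℂ) × ℕ → ℝ)
    (β : Fin n → ℂ) :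
    S.levi Φ β (z₀, s z₀) = (∑ j, ∑ k, cHess (fun z => Φ (z, s z)) z₀ j k * β j *
      (starRingEnd ℂ) (β k)).re := by
  show (∑ j, ∑ k, S.D j (S.Db k (fun q => (Φ q : ℂ))) (z₀, s z₀) * β j *
    (starRingEnd ℂ) (β k)).re = _
  simp only [D_Db_eq hs hz]

/-- quadratic form of `Kᵀ H K̄` -/
theorem quad_conj (H K : Matrix (Fin n) (Fin n) ℂ) (β : Fin n → ℂ) :
    ∑ j, ∑ k, (K.transpose * H * K.map (starRingEnd ℂ)) j k * β j * (starRingEnd ℂ) (β k) =
      ∑ p, ∑ q, H p q * (K.mulVec β) p * (starRingEnd ℂ) ((K.mulVec β) q) := by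
  simp only [Matrix.mul_apply, Matrix.transpose_apply, Matrix.map_apply, Matrix.mulVec,
    dotProduct, map_sum, map_mul, Finset.sum_mul, Finset.mul_sum]
  -- both sides are sums over `j k q p`
  calc ∑ j, ∑ k, ∑ q, ∑ p, K p j * H p q * (starRingEnd ℂ) (K q k) * β j * (starRingEnd ℂ) (β k)
      = ∑ j, ∑ k, ∑ p, ∑ q, K p j * H p q * (starRingEnd ℂ) (K q k) * β j *
          (starRingEnd ℂ) (β k) := by
        refine Finset.sum_congr rfl fun j _ => Finset.sum_congr rfl fun k _ => ?_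
        exact Finset.sum_comm
    _ = ∑ j, ∑ p, ∑ k, ∑ q, K p j * H p q * (starRingEnd ℂ) (K q k) * β j *
          (starRingEnd ℂ) (β k) := by
        refine Finset.sum_congr rfl fun j _ => ?_
        exact Finset.sum_comm
    _ = ∑ p, ∑ j, ∑ k, ∑ q, K p j * H p q * (starRingEnd ℂ) (K q k) * β j *
          (starRingEnd ℂ) (β k) := Finset.sum_comm
    _ = ∑ p, ∑ q, ∑ k, ∑ j, K p j * H p q * (starRingEnd ℂ) (K q k) * β j *
          (starRingEnd ℂ) (β k) := by
        refine Finset.sum_congr rfl fun p _ => ?_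
        rw [Finset.sum_comm]
        calc ∑ k, ∑ j, ∑ q, K p j * H p q * (starRingEnd ℂ) (K q k) * β j * (starRingEnd ℂ) (β k)
            = ∑ k, ∑ q, ∑ j, K p j * H p q * (starRingEnd ℂ) (K q k) * β j *
                (starRingEnd ℂ) (β k) := by
              refine Finset.sum_congr rfl fun k _ => ?_
              exact Finset.sum_comm
          _ = _ := Finset.sum_comm
    _ = _ := by
        refine Finset.sum_congr rfl fun p _ => Finset.sum_congr rfl fun q _ =>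
          Finset.sum_congr rfl fun k _ => Finset.sum_congr rfl fun j _ => ?_
        ring

/-- a positive semidefinite matrix has nonnegative quadratic form -/
theorem quad_nonneg {H : Matrix (Fin n) (Fin n) ℂ} (hH : H.PosSemidef) (γ : Fin n → ℂ) :
    0 ≤ (∑ j, ∑ k, H j k * γ j * (starRingEnd ℂ) (γ k)).re := by
  have h := hH.dotProduct_mulVec_nonneg (star γ)
  have h2 : star (star γ) ⬝ᵥ H.mulVec (star γ) =
      ∑ j, ∑ k, H j k * γ j * (starRingEnd ℂ) (γ k) := by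
    rw [star_star]
    simp only [dotProduct, Matrix.mulVec, Finset.mul_sum, Pi.star_apply, RCLike.star_def]
    refine Finset.sum_congr rfl fun j _ => Finset.sum_congr rfl fun k _ => ?_
    ring
  rw [h2] at h
  exact (Complex.nonneg_iff.1 h).1

end levi

namespace Brg

variable {n N : ℕ} {S : Sheets n N} {X : Type} [TopologicalSpace X] [ChartedSpace (Cm n) X]
  [Nonempty X] (B : Brg S X)

/-- the chosen chart at the point over `q` -/
def ce (q : (Fin n → ℂ) × ℕ) : Chart n X := chartAt (Cm n) (B.j q)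

theorem ce_at (q : (Fin n → ℂ) × ℕ) : At (B.ce q) (B.j q) :=
  ⟨chart_mem_atlas (Cm n) _, mem_chart_source (Cm n) _⟩

/-- the weights `φ` of `K_X` in the frame `dζ`: `|dζ|² = exp (-wt φ)` -/
def wt (φ : Chart n X → Cm n → ℝ) (q : (Fin n → ℂ) × ℕ) : ℝ :=
  φ (B.ce q) (B.ce q (B.j q)) - Real.log (‖(B.J (B.ce q) (B.j q)).det‖ ^ 2)

variable [IsManifold 𝓘(ℂ, Cm n) ω X]

theorem wt_eq {φ : Chart n X → Cm n → ℝ}
    (hc : ∀ e e' x, At e x → At e' x →
      φ e (e x) = φ e' (e' x) + Real.log (‖(jacM e e' x).det‖ ^ 2))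
    {q : (Fin n → ℂ) × ℕ} (hq : q ∈ S.M) {e : Chart n X} (he : At e (B.j q)) :
    B.wt φ q = φ e (e (B.j q)) - Real.log (‖(B.J e (B.j q)).det‖ ^ 2) := by
  have h1 := hc e (B.ce q) (B.j q) he (B.ce_at q)
  have h2 := B.J_comp he (B.ce_at q) (B.j_mem hq)
  have h3 := B.J_det (B.ce_at q) (B.j_mem hq)
  have h4 := Vale.Agent.P272.K.jacM_det_ne_zero he (B.ce_at q)
  rw [wt, h1, h2, Matrix.det_mul, norm_mul, mul_pow, Real.log_mul
    (pow_ne_zero 2 (norm_ne_zero_iff.2 h3)) (pow_ne_zero 2 (norm_ne_zero_iff.2 h4))]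
  ring

/-- the local expression of the weight in the chart `e` -/
def wl (φ : Chart n X → Cm n → ℝ) (e : Chart n X) (w : Cm n) : ℝ :=
  φ e w - Real.log (‖(B.J e (e.symm w)).det‖ ^ 2)

variable {φ : Chart n X → Cm n → ℝ} {e : Chart n X} {x : X}
  {W : Set (Fin n → ℂ)} {s : (Fin n → ℂ) → ℕ} {z₀ : Fin n → ℂ}

theorem log_J_contDiffAt (h : At e x) (hx : x ∈ B.Xo) {k : ℕ∞} :
    ContDiffAt ℝ k (fun w => Real.log (‖(B.J e (e.symm w)).det‖ ^ 2)) (e x) := by
  have hd : ContDiffAt ℝ k (fun y => (B.J e (e.symm y)).det) (e x) :=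
    ((B.J_det_analyticAt h hx).restrict_scalars ℝ).of_le (by exact le_top)
  refine (hd.norm_sq ℝ).log ?_
  rw [h.left_inv]
  exact pow_ne_zero 2 (norm_ne_zero_iff.2 (B.J_det h hx))

theorem wl_contDiffAt (hs : ∀ e x, At e x → ContDiffAt ℝ ∞ (φ e) (e x)) (h : At e x)
    (hx : x ∈ B.Xo) : ContDiffAt ℝ ∞ (B.wl φ e) (e x) :=
  (hs e x h).sub (B.log_J_contDiffAt h hx (k := ⊤))

theorem wt_eventually (hc : ∀ e e' x, At e x → At e' x →
      φ e (e x) = φ e' (e' x) + Real.log (‖(jacM e e' x).det‖ ^ 2))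
    (hs : S.IsSection W s) (hz : z₀ ∈ W) (he : At e (B.j (z₀, s z₀))) :
    (fun z => B.wt φ (z, s z)) =ᶠ[𝓝 z₀] fun z => B.wl φ e (e (B.j (z, s z))) := by
  filter_upwards [B.lc_eventually hs hz he] with z hz'
  obtain ⟨h1, h2, h3, h4, h5⟩ := hz'
  rw [B.wt_eq hc (hs.mem_M h1) h2, wl, h4]

theorem wt_contDiffAt (hφ : IsCanonicalMetric φ) (hs : S.IsSection W s) (hz : z₀ ∈ W) :
    ContDiffAt ℝ ∞ (fun z => B.wt φ (z, s z)) z₀ := by
  have he : At (B.ce (z₀, s z₀)) (B.j (z₀, s z₀)) := B.ce_at _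
  refine ContDiffAt.congr_of_eventuallyEq ?_ (B.wt_eventually hφ.change hs hz he)
  have h1 := B.lc_analyticAt hs hz he
  have h2 : ContDiffAt ℝ ∞ (fun z => B.ce (z₀, s z₀) (B.j (z, s z))) z₀ :=
    ((h1.contDiffAt (n := ω)).restrict_scalars ℝ).of_le (by exact le_top)
  exact ContDiffAt.comp z₀ (g := B.wl φ (B.ce (z₀, s z₀)))
    (B.wl_contDiffAt hφ.smooth he (B.j_mem (hs.mem_M hz))) h2

/-- the weights are smooth along the sheets -/
theorem wt_CD (hφ : IsCanonicalMetric φ) (k : ℕ) : S.CD k (fun q => (B.wt φ q : ℂ)) := by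
  intro W s hs z hz
  have h1 := (B.wt_contDiffAt hφ hs hz).of_le (nat_le_infty k)
  exact (Vale.Agent.P272.K.ofReal_contDiffAt h1).contDiffWithinAt

/-- the curvature of the weights along a section -/
theorem wt_cHess (hφ : IsCanonicalMetric φ) (hs : S.IsSection W s) (hz : z₀ ∈ W)
    (he : At e (B.j (z₀, s z₀))) :
    cHess (fun z => B.wt φ (z, s z)) z₀ =
      (jmat (fun z => e (B.j (z, s z))) z₀).transpose *
        cHess (φ e) (e (B.j (z₀, s z₀))) *
        (jmat (fun z => e (B.j (z, s z))) z₀).map (starRingEnd ℂ) := by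
  have hxo := B.j_mem (hs.mem_M hz)
  rw [Vale.Agent.P272.K.cHess_congr (B.wt_eventually hφ.change hs hz he)]
  have h1 := B.lc_analyticAt hs hz he
  have h2 := Vale.Agent.P272.K.cHess_comp (f := B.wl φ e) (τ := fun z => e (B.j (z, s z)))
    (z := z₀) ((B.wl_contDiffAt hφ.smooth he hxo).of_le two_le_infty)
    (h1.contDiffAt (n := ω))
  rw [h2]
  congr 2
  have h3 : ContDiffAt ℝ 2 (φ e) (e (B.j (z₀, s z₀))) :=
    (hφ.smooth e _ he).of_le two_le_infty
  have h4 : ContDiffAt ℝ 2 (fun w => Real.log (‖(B.J e (e.symm w)).det‖ ^ 2))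
      (e (B.j (z₀, s z₀))) := (B.log_J_contDiffAt he hxo (k := ⊤)).of_le two_le_infty
  show cHess (fun w => φ e w - Real.log (‖(B.J e (e.symm w)).det‖ ^ 2)) _ = _
  rw [Vale.Agent.P272.K.cHess_sub h3 h4, Vale.Agent.P272.K.cHess_log_norm_sq
    (B.J_det_analyticAt he hxo) (by rw [he.left_inv]; exact B.J_det he hxo), sub_zero]

/-- **the Levi form of the weights** -/
theorem wt_levi (hφ : IsCanonicalMetric φ) (hs : S.IsSection W s) (hz : z₀ ∈ W)
    (he : At e (B.j (z₀, s z₀))) (β : Fin n → ℂ) :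
    S.levi (B.wt φ) β (z₀, s z₀) =
      (∑ p, ∑ q, cHess (φ e) (e (B.j (z₀, s z₀))) p q *
        ((jmat (fun z => e (B.j (z, s z))) z₀).mulVec β) p *
        (starRingEnd ℂ) (((jmat (fun z => e (B.j (z, s z))) z₀).mulVec β) q)).re := by
  rw [levi_eq_cHess hs hz, B.wt_cHess hφ hs hz he, quad_conj]

/-- the Levi form of `-wt φ` -/
theorem neg_wt_levi (hφ : IsCanonicalMetric φ) (hs : S.IsSection W s) (hz : z₀ ∈ W)
    (he : At e (B.j (z₀, s z₀))) (β : Fin n → ℂ) :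
    S.levi (fun q => - B.wt φ q) β (z₀, s z₀) =
      (∑ p, ∑ q, (-cHess (φ e) (e (B.j (z₀, s z₀)))) p q *
        ((jmat (fun z => e (B.j (z, s z))) z₀).mulVec β) p *
        (starRingEnd ℂ) (((jmat (fun z => e (B.j (z, s z))) z₀).mulVec β) q)).re := by
  have h1 : cHess (fun z => - B.wt φ (z, s z)) z₀ = -cHess (fun z => B.wt φ (z, s z)) z₀ := by
    have h2 := Vale.Agent.P272.K.cHess_const_mul (f := fun z => B.wt φ (z, s z)) (-1 : ℝ)
      (z := z₀) ((B.wt_contDiffAt hφ hs hz).of_le two_le_infty)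
    have h3 : (fun z => - B.wt φ (z, s z)) = fun z => (-1 : ℝ) * B.wt φ (z, s z) := by
      funext z; ring
    rw [h3, h2]
    simp
  have h4 : -cHess (fun z => B.wt φ (z, s z)) z₀ =
      (jmat (fun z => e (B.j (z, s z))) z₀).transpose *
        (-cHess (φ e) (e (B.j (z₀, s z₀)))) *
        (jmat (fun z => e (B.j (z, s z))) z₀).map (starRingEnd ℂ) := by
    rw [B.wt_cHess hφ hs hz he, Matrix.mul_neg, Matrix.neg_mul]
  rw [levi_eq_cHess hs hz]
  show (∑ j, ∑ k, cHess (fun z => - B.wt φ (z, s z)) z₀ j k * β j * (starRingEnd ℂ) (β k)).re = _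
  rw [h1, h4, quad_conj]

/-- `-K_X` semipositive: `-wt φ` is plurisubharmonic -/
theorem neg_wt_levi_nonneg (hφ : IsCanonicalMetric φ)
    (hneg : ∀ e x, At e x → (-cHess (φ e) (e x)).PosSemidef) (β : Fin n → ℂ)
    {q : (Fin n → ℂ) × ℕ} (hq : q ∈ S.M) : 0 ≤ S.levi (fun q => - B.wt φ q) β q := by
  obtain ⟨s, W, hs, z, hz, rfl⟩ := Sheets.exists_section' hq
  rw [B.neg_wt_levi hφ hs hz (B.ce_at _)]
  exact quad_nonneg (hneg _ _ (B.ce_at _)) _

end Brg

end Vale.Agent.P299.H216
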