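import Vale.Agent.P299.H590.A.GSeq
import Vale.Agent.P299.H216.BrgH
import Vale.Agent.P299.H91.Reg

set_option linter.all false

/-!
P299, step (5): the sequence `G` of `Data5` from a distributional weight, `LPsh` form, and from a
weight on `X` (`XWeight`).
-/

open MeasureTheory Filter Topology
open scoped ENNReal NNReal ComplexConjugate

namespace Vale.Agent.P299.H216

open Vale.Agent.P300.L2 Vale.Agent.P300.L2.Sheets Vale.Agent.P299.Pencil
open Vale.Agent.P299.H590.A (sq sq_pos sq_cd supc supc_le)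

variable {n N : ℕ} {S : Sheets n N} {p : (Fin n → ℂ) → ℝ}

theorem exists_GL {C : ℝ} {k0 : ℕ} (hp : Exh S.V p C k0) {φ v' : Pt n → ℝ}
    (hφ : S.CD 2 (fun q => (φ q : ℂ))) {ru rv : ℕ} {u : Fin (ru + 1) → Pt n → ℂ}
    {v : Fin (rv + 1) → Pt n → ℂ} (hu : ∀ i, S.Holo (u i)) (hu0 : ∀ q ∈ S.M, u 0 q ≠ 0)
    (hv : ∀ i, S.Holo (v i)) (hv0 : ∀ q ∈ S.M, v 0 q ≠ 0) {ε d : ℝ} (hd : 0 < d)
    (hpsh : H91.LPsh S (fun q => φ q + v' q - ε * Real.log (sq u q * sq v q)))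
    (hneg : ∀ᵐ q ∂S.μ, v' q ≤ 0)
    (hint : ∫⁻ q, ENNReal.ofReal (Real.exp (-(φ q + d * v' q))) ∂S.μ < ⊤) :
    ∃ G : ℕ → Pt n → ℝ, (∀ i, S.CD 2 (fun q => (G i q : ℂ))) ∧
      (∀ i, ∀ q ∈ S.M, G (i + 1) q ≤ G i q) ∧
      (∀ i, ∀ q ∈ S.M, ∀ β : Fin n → ℂ, 0 ≤ S.levi (G i) β q) ∧
      (∀ i, ∃ (c : ℝ) (k : ℕ), ∀ q ∈ S.M, Real.exp (-G i q) ≤ c * (1 + p q.1) ^ k) ∧
      (∀ q ∈ S.M, limE G q * (sq u q * sq v q) ^ ε ≤ Real.exp (φ q)) ∧
      ∫⁻ q, ENNReal.ofReal (Real.exp (-((1 - d) * φ q))) * supc d G q *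
        ENNReal.ofReal ((sq u q * sq v q) ^ (-(d * ε))) ∂S.μ < ⊤ := by
  have hpos : ∀ q ∈ S.M, 0 < sq u q * sq v q := fun q hq =>
    mul_pos (sq_pos (hu0 q hq)) (sq_pos (hv0 q hq))
  have hlog : S.CD 2 (fun q => ((Real.log (sq u q * sq v q) : ℝ) : ℂ)) := by
    refine CD.log ?_ hpos
    refine ((sq_cd hu 2).mul (sq_cd hv 2)).congr fun q _ => ?_
    push_cast
    ring
  have hup : S.CD 2 (fun q => ((φ q - ε * Real.log (sq u q * sq v q) : ℝ) : ℂ)) := by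
    refine (hφ.add ((CD.const ((-ε : ℝ) : ℂ)).mul hlog)).congr fun q _ => ?_
    push_cast
    ring
  obtain ⟨G, h1, h2, h3, h4, h5, h6, -⟩ := hpsh.exists_reg hp (g := fun _ => 0)
    (φ := fun q => φ q - ε * Real.log (sq u q * sq v q)) (by
      simpa using (CD.const (S := S) (m := 2) 0)) (hup.mono (by norm_num)) (by
      filter_upwards [hneg] with q hq
      linarith)
  refine ⟨G, h1, h2, fun i q hq β => ?_, fun i => ?_, fun q hq => ?_, ?_⟩
  · have := h4 i q hq β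
    simpa using this
  · obtain ⟨c, hc⟩ := h3 i
    refine ⟨Real.exp (-c), 0, fun q hq => ?_⟩
    rw [pow_zero, mul_one]
    exact Real.exp_le_exp.2 (by linarith [hc q hq])
  · have h7 := h5 q hq
    have h8 := hpos q hq
    have h9 : (sq u q * sq v q) ^ ε = Real.exp (ε * Real.log (sq u q * sq v q)) := by
      rw [Real.rpow_def_of_pos h8, mul_comm]
    rw [h9]
    calc limE G q * Real.exp (ε * Real.log (sq u q * sq v q))
        ≤ Real.exp (φ q - ε * Real.log (sq u q * sq v q)) *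
          Real.exp (ε * Real.log (sq u q * sq v q)) :=
          mul_le_mul_of_nonneg_right h7 (Real.exp_pos _).le
      _ = Real.exp (φ q) := by
          rw [← Real.exp_add]
          congr 1
          ring
  · refine lt_of_le_of_lt (lintegral_mono_ae ?_) hint
    filter_upwards [h6, ae_mem_M (S := S)] with q hq hqM
    have h8 := hpos q hqM
    have h9 : (sq u q * sq v q) ^ (-(d * ε)) =
        Real.exp (-(d * ε) * Real.log (sq u q * sq v q)) := by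
      rw [Real.rpow_def_of_pos h8, mul_comm]
    have h10 : supc d G q ≤ ENNReal.ofReal (Real.exp (-(d * (φ q + v' q -
        ε * Real.log (sq u q * sq v q) + 0)))) := supc_le hd.le hq.ge
    calc ENNReal.ofReal (Real.exp (-((1 - d) * φ q))) * supc d G q *
        ENNReal.ofReal ((sq u q * sq v q) ^ (-(d * ε)))
        ≤ ENNReal.ofReal (Real.exp (-((1 - d) * φ q))) * ENNReal.ofReal (Real.exp (-(d * (φ q +
          v' q - ε * Real.log (sq u q * sq v q) + 0)))) *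
          ENNReal.ofReal ((sq u q * sq v q) ^ (-(d * ε))) :=
          mul_le_mul' (mul_le_mul' le_rfl h10) le_rfl
      _ = ENNReal.ofReal (Real.exp (-(φ q + d * v' q))) := by
          rw [h9, ← ENNReal.ofReal_mul (Real.exp_pos _).le, ← Real.exp_add,
            ← ENNReal.ofReal_mul (Real.exp_pos _).le, ← Real.exp_add]
          congr 2
          ring

open Vale.Agent.P272.K (Cm Chart At jacM jmat cHess IsCanonicalMetric IsForm)
open scoped Manifold ContDiff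

/-- **the sequence `G` from a weight on `X`** -/
theorem exists_G_of_xweight {X : Type} [TopologicalSpace X] [ChartedSpace (Cm n) X] [Nonempty X]
    [IsManifold 𝓘(ℂ, Cm n) ω X] [CompactSpace X] (B : Brg S X)
    {C : ℝ} {k0 : ℕ} (hp : Exh S.V p C k0) {φ : Chart n X → Cm n → ℝ} (hφ : IsCanonicalMetric φ)
    {Mb : Chart n X → Cm n → Matrix (Fin n) (Fin n) ℂ}
    (hMb : ∀ e e' x, At e x → At e' x → x ∈ B.Xo →
      Mb e (e x) = (jacM e e' x).transpose * Mb e' (e' x) * (jacM e e' x).map (starRingEnd ℂ))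
    {ru rv : ℕ} {u : Fin (ru + 1) → Pt n → ℂ} {v : Fin (rv + 1) → Pt n → ℂ}
    (hu : ∀ i, S.Holo (u i)) (hu0 : ∀ q ∈ S.M, u 0 q ≠ 0)
    (hv : ∀ i, S.Holo (v i)) (hv0 : ∀ q ∈ S.M, v 0 q ≠ 0)
    (hGl : ∀ q ∈ S.M, ∀ β : Fin n → ℂ,
      S.levi (fun q => Real.log (sq u q * sq v q)) β q = B.frm Mb β q)
    {V : X → ℝ} {Om : Set X} {ε d : ℝ} (hd : 0 < d) (hOm : B.Xo ⊆ Om)
    (hV : XWeight (fun e z => -cHess (φ e) z) Mb Om V ε d) :
    ∃ G : ℕ → Pt n → ℝ, (∀ i, S.CD 2 (fun q => (G i q : ℂ))) ∧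
      (∀ i, ∀ q ∈ S.M, G (i + 1) q ≤ G i q) ∧
      (∀ i, ∀ q ∈ S.M, ∀ β : Fin n → ℂ, 0 ≤ S.levi (G i) β q) ∧
      (∀ i, ∃ (c : ℝ) (k : ℕ), ∀ q ∈ S.M, Real.exp (-G i q) ≤ c * (1 + p q.1) ^ k) ∧
      (∀ q ∈ S.M, limE G q * (sq u q * sq v q) ^ ε ≤ Real.exp (-B.wt φ q)) ∧
      ∫⁻ q, ENNReal.ofReal (Real.exp (-((1 - d) * (-B.wt φ q)))) * supc d G q *
        ENNReal.ofReal ((sq u q * sq v q) ^ (-(d * ε))) ∂S.μ < ⊤ := by
  have hpos : ∀ q ∈ S.M, 0 < sq u q * sq v q := fun q hq =>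
    mul_pos (sq_pos (hu0 q hq)) (sq_pos (hv0 q hq))
  have hlog : S.CD 2 (fun q => ((Real.log (sq u q * sq v q) : ℝ) : ℂ)) := by
    refine CD.log ?_ hpos
    refine ((sq_cd hu 2).mul (sq_cd hv 2)).congr fun q _ => ?_
    push_cast
    ring
  have hwt : S.CD 2 (fun q => ((-B.wt φ q : ℝ) : ℂ)) := by
    refine ((CD.const (-1 : ℂ)).mul (B.wt_CD hφ 2)).congr fun q _ => ?_
    push_cast
    ring
  have h1 : H91.LPsh S (fun q => (-B.wt φ q) + V (B.j q) -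
      ε * Real.log (sq u q * sq v q)) := B.lpsh hφ hMb hlog hGl hOm hV
  have h2 : ∀ᵐ q ∂S.μ, V (B.j q) ≤ 0 := B.ae_j (P := fun x => V x ≤ 0) hV.neg
  have h3 := B.lintegral_exp_lt_top hφ hV.meas hV.exp
  exact exists_GL (φ := fun q => -B.wt φ q) (v' := fun q => V (B.j q)) hp hwt hu hu0 hv hv0 hd
    h1 h2 h3

end Vale.Agent.P299.H216
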